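import Mathlib

/-!
P331: the one-sample online model against the almighty adversary.
-/

namespace Vale.Agent.P331I

open MeasureTheory
open scoped ENNReal NNReal

universe u

variable {α : Type u} [DecidableEq α]

/-- The largest total value of an independent set. -/
noncomputable def opt (M : Matroid α) (V : α → ℝ≥0) : ℝ≥0∞ :=
  ⨆ (I : Finset α) (_ : M.Indep (I : Set α)), ∑ e ∈ I, (V e : ℝ≥0∞)

/-- An online rule: given the samples, the seed, the arrivals so far, the accepted set,
the arriving element and its value, it says whether to accept. -/
abbrev Policy (α : Type u) (R : Type u) : Type u :=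
  (α → ℝ≥0) → R → List (α × ℝ≥0) → Finset α → α → ℝ≥0 → Prop

open Classical in
/-- The accepted set after the arrivals in the given list; an element is accepted iff the rule
says so and independence is kept. -/
noncomputable def run {R : Type u} (M : Matroid α) (dec : Policy α R) (S : α → ℝ≥0) (r : R)
    (V : α → ℝ≥0) : List (α × ℝ≥0) → Finset α → List α → Finset α
  | _, A, [] => A
  | h, A, e :: l =>
    run M dec S r V (h ++ [(e, V e)])
      (if dec S r h A e (V e) ∧ M.Indep ((insert e A : Finset α) : Set α) then insert e A else A) l

/-- The value collected under the worst arrival order, chosen knowing samples, seed and values. -/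
noncomputable def worst {R : Type u} (M : Matroid α) (dec : Policy α R) (S : α → ℝ≥0) (r : R)
    (V : α → ℝ≥0) : ℝ≥0∞ :=
  ⨅ l : {l : List α // l.Nodup ∧ ∀ e, e ∈ l},
    ∑ e ∈ run M dec S r V [] ∅ l.1, (V e : ℝ≥0∞)

end Vale.Agent.P331I
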