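import Mathlib

/-!
P331: the densest-first chain of flats, through the rank function.
-/

namespace Vale.Agent.P331I

open Finset

universe u

variable {α : Type u} [Fintype α] [DecidableEq α] (M : Matroid α)

/-- Rank as a natural number. -/
noncomputable def rho (X : Finset α) : ℕ := (M.eRk (X : Set α)).toNat

lemma rho_cast (X : Finset α) : (rho M X : ℕ∞) = M.eRk (X : Set α) := by
  refine ENat.coe_toNat ?_
  exact ne_top_of_le_ne_top (X.finite_toSet.encard_lt_top).ne (M.eRk_le_encard _)

lemma rho_mono {X Y : Finset α} (h : X ⊆ Y) : rho M X ≤ rho M Y := by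
  have := M.eRk_mono (coe_subset.2 h)
  rw [← rho_cast, ← rho_cast] at this
  exact_mod_cast this

lemma rho_le_card (X : Finset α) : rho M X ≤ X.card := by
  have := M.eRk_le_encard (X : Set α)
  rw [← rho_cast, Set.encard_coe_eq_coe_finsetCard] at this
  exact_mod_cast this

lemma rho_submod (X Y : Finset α) : rho M (X ∩ Y) + rho M (X ∪ Y) ≤ rho M X + rho M Y := by
  have := M.eRk_inter_add_eRk_union_le (X : Set α) (Y : Set α)
  rw [← coe_inter, ← coe_union, ← rho_cast, ← rho_cast, ← rho_cast, ← rho_cast] at this
  exact_mod_cast this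

lemma indep_iff_rho (X : Finset α) : M.Indep (X : Set α) ↔ rho M X = X.card := by
  rw [Matroid.indep_iff_eRk_eq_encard_of_finite X.finite_toSet, ← rho_cast,
    Set.encard_coe_eq_coe_finsetCard]
  exact_mod_cast Iff.rfl

lemma rho_insert_eq {X Y : Finset α} {e : α} (hXY : X ⊆ Y)
    (h : rho M (insert e X) = rho M X) : rho M (insert e Y) = rho M Y := by
  refine le_antisymm ?_ (rho_mono M (subset_insert _ _))
  have h1 := rho_submod M (insert e X) Y
  have h2 : insert e X ∪ Y = insert e Y := by
    rw [insert_union, union_eq_right.2 hXY]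
  have h3 : rho M X ≤ rho M (insert e X ∩ Y) :=
    rho_mono M (subset_inter (subset_insert _ _) hXY)
  rw [h2, h] at h1
  omega

lemma rho_union_eq {X Z : Finset α} (h : ∀ e ∈ Z, rho M (insert e X) = rho M X) :
    rho M (X ∪ Z) = rho M X := by
  induction Z using Finset.induction_on with
  | empty => simp
  | insert a Z ha ih =>
    rw [union_insert, rho_insert_eq M subset_union_left (h a (mem_insert_self _ _))]
    exact ih fun e he => h e (mem_insert_of_mem he)

/-- The loops. -/
noncomputable def loopSet : Finset α := univ.filter fun e => rho M {e} = 0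

lemma rho_loopSet : rho M (loopSet M) = 0 := by
  have h0 : rho M (∅ : Finset α) = 0 := Nat.le_zero.1 ((rho_le_card M ∅).trans_eq card_empty)
  have := rho_union_eq M (X := ∅) (Z := loopSet M) (by
    intro e he
    rw [h0]
    simpa [loopSet] using he)
  rw [empty_union] at this
  rw [this, h0]

/-- Every element outside `C` raises the rank. -/
def IsClosedSet (C : Finset α) : Prop := ∀ e, e ∉ C → rho M C < rho M (insert e C)

lemma loopSet_closed : IsClosedSet M (loopSet M) := by
  intro e he
  rw [rho_loopSet]
  have : rho M {e} ≠ 0 := by simpa [loopSet] using he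
  exact lt_of_lt_of_le (Nat.pos_of_ne_zero this) (rho_mono M (by simp))

/-- Density of `X` over `C`. -/
noncomputable def dens (C X : Finset α) : ℚ :=
  (X.card : ℚ) / ((rho M (C ∪ X) - rho M C : ℕ) : ℚ)

open Classical in
/-- A densest nonempty set outside `C`. -/
noncomputable def best (C : Finset α) : Finset α :=
  if h : ((univ \ C).powerset.filter fun X => X.Nonempty).Nonempty then
    (Finset.exists_max_image _ (dens M C) h).choose
  else ∅

lemma gap_pos {C X : Finset α} (hC : IsClosedSet M C) (hX : Disjoint X C) (hne : X.Nonempty) :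
    rho M C < rho M (C ∪ X) := by
  obtain ⟨e, he⟩ := hne
  refine lt_of_lt_of_le (hC e (disjoint_left.1 hX he)) (rho_mono M ?_)
  exact insert_subset (mem_union_right _ he) subset_union_left

lemma best_subset (C : Finset α) : best M C ⊆ univ \ C := by
  classical
  unfold best
  split_ifs with h
  · have := (Finset.exists_max_image _ (dens M C) h).choose_spec.1
    rw [mem_filter, mem_powerset] at this
    exact this.1
  · exact empty_subset _

lemma best_disjoint (C : Finset α) : Disjoint (best M C) C :=
  disjoint_left.2 fun e he => (mem_sdiff.1 (best_subset M C he)).2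

lemma best_nonempty {C : Finset α} (hC : C ≠ univ) : (best M C).Nonempty := by
  classical
  have h : ((univ \ C).powerset.filter fun X => X.Nonempty).Nonempty := by
    refine ⟨univ \ C, ?_⟩
    rw [mem_filter, mem_powerset]
    refine ⟨subset_rfl, ?_⟩
    rw [sdiff_nonempty]
    exact fun hsub => hC (eq_univ_of_forall fun e => hsub (mem_univ e))
  unfold best
  rw [dif_pos h]
  have := (Finset.exists_max_image _ (dens M C) h).choose_spec.1
  rw [mem_filter] at this
  exact this.2

lemma best_max {C X : Finset α} (hC : IsClosedSet M C) (hX : Disjoint X C) :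
    X.card * (rho M (C ∪ best M C) - rho M C)
      ≤ (best M C).card * (rho M (C ∪ X) - rho M C) := by
  classical
  rcases X.eq_empty_or_nonempty with rfl | hne
  · simp
  have hsub : X ⊆ univ \ C := fun e he => by simp [disjoint_left.1 hX he]
  have h : ((univ \ C).powerset.filter fun X => X.Nonempty).Nonempty :=
    ⟨X, mem_filter.2 ⟨mem_powerset.2 hsub, hne⟩⟩
  have hmax : dens M C X ≤ dens M C (best M C) := by
    have := (Finset.exists_max_image _ (dens M C) h).choose_spec.2 X
      (mem_filter.2 ⟨mem_powerset.2 hsub, hne⟩)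
    unfold best
    rwa [dif_pos h]
  have hCne : C ≠ univ := by
    rintro rfl
    obtain ⟨e, he⟩ := hne
    exact disjoint_left.1 hX he (mem_univ e)
  have p1 := gap_pos M hC hX hne
  have p2 := gap_pos M hC (best_disjoint M C) (best_nonempty M hCne)
  have q1 : (0 : ℚ) < ((rho M (C ∪ X) - rho M C : ℕ) : ℚ) := by exact_mod_cast Nat.sub_pos_of_lt p1
  have q2 : (0 : ℚ) < ((rho M (C ∪ best M C) - rho M C : ℕ) : ℚ) := by
    exact_mod_cast Nat.sub_pos_of_lt p2
  unfold dens at hmax
  rw [div_le_div_iff₀ q1 q2] at hmax
  exact_mod_cast hmax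

lemma best_closed {C : Finset α} (hC : IsClosedSet M C) : IsClosedSet M (C ∪ best M C) := by
  intro e he
  by_contra hcon
  have heq : rho M (insert e (C ∪ best M C)) = rho M (C ∪ best M C) :=
    le_antisymm (not_lt.1 hcon) (rho_mono M (subset_insert _ _))
  rw [mem_union, not_or] at he
  have hCne : C ≠ univ := fun h => he.1 (h ▸ mem_univ e)
  have hd : Disjoint (insert e (best M C)) C :=
    disjoint_insert_left.2 ⟨he.1, best_disjoint M C⟩
  have h1 := best_max M hC hd
  rw [union_insert, heq, card_insert_of_notMem he.2] at h1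
  have := Nat.sub_pos_of_lt (gap_pos M hC (best_disjoint M C) (best_nonempty M hCne))
  nlinarith

/-- The chain. -/
noncomputable def Cs : ℕ → Finset α
  | 0 => loopSet M
  | i + 1 => Cs i ∪ best M (Cs i)

/-- The layers. -/
noncomputable def lay (i : ℕ) : Finset α := best M (Cs M i)

/-- The rank of a layer over the chain below it. -/
noncomputable def lrk (i : ℕ) : ℕ := rho M (Cs M (i + 1)) - rho M (Cs M i)

lemma Cs_succ (i : ℕ) : Cs M (i + 1) = Cs M i ∪ lay M i := rfl

lemma Cs_closed (i : ℕ) : IsClosedSet M (Cs M i) := by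
  induction i with
  | zero => exact loopSet_closed M
  | succ i ih => exact best_closed M ih

lemma lay_disjoint (i : ℕ) : Disjoint (lay M i) (Cs M i) := best_disjoint M _

lemma Cs_mono {i j : ℕ} (h : i ≤ j) : Cs M i ⊆ Cs M j := by
  induction j, h using Nat.le_induction with
  | base => exact subset_rfl
  | succ j _ ih => exact ih.trans subset_union_left

lemma lay_pairwise {i j : ℕ} (h : i ≠ j) : Disjoint (lay M i) (lay M j) := by
  wlog hij : i < j generalizing i j
  · exact (this h.symm (lt_of_le_of_ne (not_lt.1 hij) h.symm)).symm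
  refine disjoint_left.2 fun e hi hj => disjoint_left.1 (lay_disjoint M j) hj ?_
  exact Cs_mono M hij (mem_union_right _ hi)

lemma le_card_Cs (k : ℕ) : min k (Fintype.card α) ≤ (Cs M k).card := by
  induction k with
  | zero => simp
  | succ k ih =>
    by_cases h : Cs M k = univ
    · have : (Cs M (k + 1)) = univ := eq_univ_of_forall fun e => mem_union_left _ (h ▸ mem_univ e)
      rw [this, card_univ]
      exact min_le_right _ _
    · have h1 : (Cs M (k + 1)).card = (Cs M k).card + (lay M k).card := by
        rw [Cs_succ, card_union_of_disjoint (lay_disjoint M k).symm]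
      have h2 : 0 < (lay M k).card := card_pos.2 (best_nonempty M h)
      omega

lemma Cs_top : Cs M (Fintype.card α) = univ := by
  refine eq_univ_of_card _ (le_antisymm (card_le_univ _) ?_)
  simpa using le_card_Cs M (Fintype.card α)

lemma exists_lay {e : α} (he : e ∉ loopSet M) : ∃ i ∈ range (Fintype.card α), e ∈ lay M i := by
  have key : ∀ k, e ∈ Cs M k → ∃ i ∈ range k, e ∈ lay M i := by
    intro k
    induction k with
    | zero => exact fun h => absurd h he
    | succ k ih =>
      intro h
      rcases mem_union.1 h with h | h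
      · obtain ⟨i, hi, hei⟩ := ih h
        exact ⟨i, by simp only [mem_range] at hi ⊢; omega, hei⟩
      · exact ⟨k, by simp, h⟩
  exact key _ (by rw [Cs_top]; exact mem_univ e)

lemma lrk_pos {i : ℕ} (h : (lay M i).Nonempty) : 0 < lrk M i :=
  Nat.sub_pos_of_lt (gap_pos M (Cs_closed M i) (lay_disjoint M i) h)

lemma lrk_le_card (i : ℕ) : lrk M i ≤ (lay M i).card := by
  have h := rho_submod M (Cs M i) (lay M i)
  have h2 := rho_le_card M (lay M i)
  rw [lrk, Cs_succ]
  omega

lemma lay_dense {i : ℕ} {X : Finset α} (hX : X ⊆ lay M i) :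
    X.card * lrk M i ≤ (lay M i).card * (rho M (Cs M i ∪ X) - rho M (Cs M i)) :=
  best_max M (Cs_closed M i) ((lay_disjoint M i).mono_left hX)

lemma dens_antitone (i : ℕ) :
    (lay M (i + 1)).card * lrk M i ≤ (lay M i).card * lrk M (i + 1) := by
  have hd : Disjoint (lay M i ∪ lay M (i + 1)) (Cs M i) :=
    disjoint_union_left.2 ⟨lay_disjoint M i,
      (lay_disjoint M (i + 1)).mono_right (Cs_mono M (Nat.le_succ i))⟩
  have h := best_max M (Cs_closed M i) hd
  rw [← union_assoc, card_union_of_disjoint (lay_pairwise M (Nat.succ_ne_self i).symm)] at h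
  change _ * lrk M i ≤ (lay M i).card * (rho M (Cs M (i + 2)) - rho M (Cs M i)) at h
  have h1 : rho M (Cs M i) ≤ rho M (Cs M (i + 1)) := rho_mono M (Cs_mono M (Nat.le_succ i))
  have h2 : rho M (Cs M (i + 1)) ≤ rho M (Cs M (i + 2)) :=
    rho_mono M (Cs_mono M (Nat.le_succ (i + 1)))
  have e1 : rho M (Cs M (i + 2)) - rho M (Cs M i) = lrk M i + lrk M (i + 1) := by
    unfold lrk
    change _ = _ + (rho M (Cs M (i + 2)) - rho M (Cs M (i + 1)))
    omega
  rw [e1] at h
  nlinarith

lemma lay_empty_succ {i : ℕ} (h : ¬ (lay M i).Nonempty) : ¬ (lay M (i + 1)).Nonempty := by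
  have h0 : lay M i = ∅ := not_nonempty_iff_eq_empty.1 h
  unfold lay at *
  rw [show Cs M (i + 1) = Cs M i by rw [Cs_succ, lay, h0, union_empty]]
  exact h

lemma sum_lrk (k : ℕ) : ∑ i ∈ range k, lrk M i = rho M (Cs M k) := by
  induction k with
  | zero => simpa [Cs] using (rho_loopSet M).symm
  | succ k ih =>
    rw [sum_range_succ, ih, lrk]
    have := rho_mono M (Cs_mono M (show k ≤ k + 1 by omega))
    omega

lemma indep_inter_loopSet {I : Finset α} (hI : M.Indep (I : Set α)) :
    ∀ e ∈ I, e ∉ loopSet M := by
  intro e he hl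
  have h1 : M.Indep (({e} : Finset α) : Set α) := hI.subset (by simpa using he)
  rw [indep_iff_rho, card_singleton] at h1
  have : rho M {e} = 0 := by simpa [loopSet] using hl
  omega

lemma sum_card_inter_le {I : Finset α} (hI : M.Indep (I : Set α)) (k : ℕ) :
    ∑ i ∈ range k, (I ∩ lay M i).card ≤ rho M (Cs M k) := by
  have h1 : ∑ i ∈ range k, (I ∩ lay M i).card ≤ (I ∩ Cs M k).card := by
    rw [← card_biUnion]
    · refine card_le_card fun e he => ?_
      simp only [mem_biUnion, mem_inter, mem_range] at he
      obtain ⟨i, hi, heI, hel⟩ := he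
      exact mem_inter.2 ⟨heI, Cs_mono M (show i + 1 ≤ k by omega) (mem_union_right _ hel)⟩
    · exact fun i _ j _ hij => (lay_pairwise M hij).mono inter_subset_right inter_subset_right
  have h2 : M.Indep ((I ∩ Cs M k : Finset α) : Set α) :=
    hI.subset (coe_subset.2 inter_subset_left)
  rw [indep_iff_rho] at h2
  have := rho_mono M (inter_subset_right : I ∩ Cs M k ⊆ Cs M k)
  omega

/-- Few elements of a layer are spanned by a set. -/
lemma spanned_bound (i : ℕ) (R : Finset α) :
    ((lay M i).filter fun e => rho M (insert e (Cs M i ∪ R)) = rho M (Cs M i ∪ R)).card * lrk M i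
      ≤ (lay M i).card * R.card := by
  refine (lay_dense M (filter_subset _ _)).trans (Nat.mul_le_mul_left _ ?_)
  set X := (lay M i).filter fun e => rho M (insert e (Cs M i ∪ R)) = rho M (Cs M i ∪ R)
  have h1 : rho M (Cs M i ∪ X) ≤ rho M (Cs M i ∪ R ∪ X) :=
    rho_mono M (union_subset_union subset_union_left subset_rfl)
  have h2 : rho M (Cs M i ∪ R ∪ X) = rho M (Cs M i ∪ R) :=
    rho_union_eq M fun e he => (mem_filter.1 he).2
  have h3 := rho_submod M (Cs M i) R
  have h4 := rho_le_card M R
  omega

end Vale.Agent.P331I
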