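import Vale.Agent.P331I.Defs
import Vale.Agent.P331I.Layers

/-!
P331: greedy inside the layers, robust to every order; the matroid bound on the optimum.
-/

namespace Vale.Agent.P331I

open Finset
open scoped ENNReal NNReal

universe u

variable {α : Type u} [Fintype α] [DecidableEq α]

/-- `e` is spanned over layer `i`'s base by the rest of `T`. -/
def Sp (M : Matroid α) (i : ℕ) (e : α) (T : Finset α) : Prop :=
  rho M (insert e (Cs M i ∪ T.erase e)) = rho M (Cs M i ∪ T.erase e)

/-- The layered greedy rule built on a candidate test. -/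
def layerDec {R : Type u} (M : Matroid α) (cand : (α → ℝ≥0) → R → ℕ → α → ℝ≥0 → Prop) :
    Policy α R :=
  fun S r _ A e v => ∃ i ∈ range (Fintype.card α), e ∈ lay M i ∧ cand S r i e v ∧
    rho M (insert e (Cs M i ∪ (A ∩ lay M i))) = rho M (Cs M i) + (A ∩ lay M i).card + 1

/-- Independence layer by layer. -/
def Inv (M : Matroid α) (A : Finset α) : Prop :=
  (∀ e ∈ A, e ∉ loopSet M) ∧
    ∀ i, rho M (Cs M i ∪ (A ∩ lay M i)) = rho M (Cs M i) + (A ∩ lay M i).card

lemma Inv.indep {M : Matroid α} {A : Finset α} (h : Inv M A) : M.Indep (A : Set α) := by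
  have key : ∀ k, rho M (A ∩ Cs M k) = (A ∩ Cs M k).card := by
    intro k
    induction k with
    | zero =>
      have h0 : A ∩ Cs M 0 = ∅ :=
        eq_empty_of_forall_notMem fun e he => h.1 e (mem_inter.1 he).1 (mem_inter.1 he).2
      rw [h0, card_empty]
      exact Nat.le_zero.1 ((rho_le_card M ∅).trans_eq card_empty)
    | succ k ih =>
      refine le_antisymm (rho_le_card M _) ?_
      have h1 := rho_submod M (A ∩ Cs M (k + 1)) (Cs M k)
      have e1 : A ∩ Cs M (k + 1) ∪ Cs M k = Cs M k ∪ (A ∩ lay M k) := by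
        rw [Cs_succ, inter_union_distrib_left, union_comm (A ∩ Cs M k), union_assoc,
          union_eq_right.2 (inter_subset_right : A ∩ Cs M k ⊆ Cs M k), union_comm]
      have e2 : A ∩ Cs M (k + 1) ∩ Cs M k = A ∩ Cs M k := by
        rw [inter_assoc, inter_eq_right.2 (Cs_mono M (show k ≤ k + 1 by omega))]
      have e3 : (A ∩ Cs M (k + 1)).card = (A ∩ Cs M k).card + (A ∩ lay M k).card := by
        rw [Cs_succ, inter_union_distrib_left, card_union_of_disjoint]
        exact (lay_disjoint M k).symm.mono inter_subset_right inter_subset_right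
      rw [e1, e2, h.2 k, ih] at h1
      omega
  have := key (Fintype.card α)
  rw [Cs_top, inter_univ] at this
  exact (indep_iff_rho M A).2 this

lemma Inv.empty (M : Matroid α) : Inv M (∅ : Finset α) := by
  constructor <;> simp

lemma Inv.insert {M : Matroid α} {A : Finset α} {e : α} {i : ℕ} (h : Inv M A)
    (he : e ∈ lay M i)
    (hr : rho M (Insert.insert e (Cs M i ∪ (A ∩ lay M i)))
      = rho M (Cs M i) + (A ∩ lay M i).card + 1) :
    Inv M (Insert.insert e A) := by
  have heA : e ∉ A := by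
    intro hA
    rw [insert_eq_of_mem (mem_union_right _ (mem_inter.2 ⟨hA, he⟩)), h.2 i] at hr
    omega
  refine ⟨fun x hx => ?_, fun j => ?_⟩
  · rcases mem_insert.1 hx with rfl | hx
    · exact fun hl => disjoint_left.1 (lay_disjoint M i) he (Cs_mono M (Nat.zero_le i) hl)
    · exact h.1 x hx
  · by_cases hij : j = i
    · subst hij
      rw [insert_inter_of_mem he, union_insert, hr,
        card_insert_of_notMem fun hx => heA (mem_inter.1 hx).1]
      omega
    · have hej : e ∉ lay M j := fun hx => disjoint_left.1 (lay_pairwise M hij) hx he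
      rw [insert_inter_of_notMem hej]
      exact h.2 j

variable {R : Type u} (M : Matroid α) (cand : (α → ℝ≥0) → R → ℕ → α → ℝ≥0 → Prop)
  (S : α → ℝ≥0) (r : R) (V : α → ℝ≥0)

/-- What holds after the run. -/
lemma run_spec : ∀ (l : List α) (h : List (α × ℝ≥0)) (A : Finset α), Inv M A →
    (∀ x ∈ A, ∃ i, x ∈ lay M i ∧ cand S r i x (V x)) →
    let F := run M (layerDec M cand) S r V h A l
    Inv M F ∧ A ⊆ F ∧ (∀ x ∈ F, ∃ i, x ∈ lay M i ∧ cand S r i x (V x)) ∧
      ∀ e ∈ l, ∀ i ∈ range (Fintype.card α), e ∈ lay M i → cand S r i e (V e) → e ∈ F ∨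
        ∃ B ⊆ F ∩ lay M i, e ∉ B ∧ rho M (insert e (Cs M i ∪ B)) = rho M (Cs M i ∪ B) := by
  intro l
  induction l with
  | nil => exact fun h A hA hc => ⟨hA, subset_rfl, hc, by simp⟩
  | cons a l ih =>
    intro h A hA hc
    classical
    simp only [run]
    by_cases hcond : layerDec M cand S r h A a (V a) ∧
        M.Indep ((insert a A : Finset α) : Set α)
    · rw [if_pos hcond]
      obtain ⟨i, hi, hai, hci, hr⟩ := hcond.1
      have hc' : ∀ x ∈ insert a A, ∃ i, x ∈ lay M i ∧ cand S r i x (V x) := by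
        intro x hx
        rcases mem_insert.1 hx with rfl | hx
        · exact ⟨i, hai, hci⟩
        · exact hc x hx
      obtain ⟨g1, g2, g3, g4⟩ := ih (h ++ [(a, V a)]) _ (hA.insert hai hr) hc'
      refine ⟨g1, (subset_insert _ _).trans g2, g3, fun e he => ?_⟩
      rcases List.mem_cons.1 he with rfl | he
      · exact fun _ _ _ _ => Or.inl (g2 (mem_insert_self _ _))
      · exact g4 e he
    · rw [if_neg hcond]
      obtain ⟨g1, g2, g3, g4⟩ := ih (h ++ [(a, V a)]) A hA hc
      refine ⟨g1, g2, g3, fun e he => ?_⟩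
      rcases List.mem_cons.1 he with rfl | he
      · intro i hi hei hce
        by_cases heA : e ∈ A
        · exact Or.inl (g2 heA)
        right
        refine ⟨A ∩ lay M i, inter_subset_inter g2 subset_rfl,
          fun hx => heA (mem_inter.1 hx).1, ?_⟩
        by_contra hne
        have hlt : rho M (Cs M i ∪ (A ∩ lay M i))
            < rho M (insert e (Cs M i ∪ (A ∩ lay M i))) :=
          lt_of_le_of_ne (rho_mono M (subset_insert _ _)) (Ne.symm hne)
        have hub := rho_submod M (Cs M i ∪ (A ∩ lay M i)) {e}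
        rw [union_comm _ {e}, ← insert_eq] at hub
        have h1 : rho M ({e} : Finset α) ≤ 1 := (rho_le_card M _).trans_eq (card_singleton e)
        have hA2 := hA.2 i
        have hr : rho M (insert e (Cs M i ∪ (A ∩ lay M i)))
            = rho M (Cs M i) + (A ∩ lay M i).card + 1 := by omega
        exact hcond ⟨⟨i, hi, hei, hce, hr⟩, (hA.insert hei hr).indep⟩
      · exact g4 e he

lemma mem_run_of_not_Sp {l : List α} (hl : ∀ e, e ∈ l) {i : ℕ}
    (hi : i ∈ range (Fintype.card α)) {e : α} (he : e ∈ lay M i) (hc : cand S r i e (V e))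
    {T : Finset α} (hT : ∀ x ∈ lay M i, cand S r i x (V x) → x ∈ T) (hs : ¬ Sp M i e T) :
    e ∈ run M (layerDec M cand) S r V [] ∅ l := by
  obtain ⟨-, -, g3, g4⟩ := run_spec M cand S r V l [] ∅ (Inv.empty M) (by simp)
  rcases g4 e (hl e) i hi he hc with h | ⟨B, hB, heB, heq⟩
  · exact h
  · refine absurd (rho_insert_eq M (union_subset_union subset_rfl fun x hx => ?_) heq) hs
    have hx' := mem_inter.1 (hB hx)
    obtain ⟨j, hxj, hcx⟩ := g3 x hx'.1
    refine mem_erase.2 ⟨fun h => heB (h ▸ hx), hT x hx'.2 ?_⟩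
    by_cases hij : j = i
    · exact hij ▸ hcx
    · exact absurd hx'.2 (disjoint_left.1 (lay_pairwise M hij) hxj)

lemma abel {n : ℕ} {a c ρ : ℕ → ℝ} (ha : ∀ k, a (k + 1) ≤ a k) (ha0 : ∀ k, 0 ≤ a k)
    (hcp : ∀ k ≤ n, ∑ i ∈ range k, c i ≤ ∑ i ∈ range k, ρ i) :
    ∑ i ∈ range n, a i * c i ≤ ∑ i ∈ range n, a i * ρ i := by
  have key : ∀ k ≤ n, ∑ i ∈ range k, a i * c i
      + a k * (∑ i ∈ range k, ρ i - ∑ i ∈ range k, c i) ≤ ∑ i ∈ range k, a i * ρ i := by
    intro k
    induction k with
    | zero => simp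
    | succ k ih =>
      intro hk
      have h1 := ih (by omega)
      have h2 := hcp (k + 1) hk
      simp only [sum_range_succ] at h2 ⊢
      nlinarith [mul_nonneg (sub_nonneg.2 (ha k)) (sub_nonneg.2 h2)]
  nlinarith [key n le_rfl, mul_nonneg (ha0 n) (sub_nonneg.2 (hcp n le_rfl))]

/-- A dual certificate for the best independent set. -/
lemma opt_le (a : ℕ → ℝ≥0) (ha : ∀ k, a (k + 1) ≤ a k) :
    opt M V ≤ ∑ i ∈ range (Fintype.card α),
      ((lrk M i : ℝ≥0∞) * a i + ∑ e ∈ lay M i, ((V e - a i : ℝ≥0) : ℝ≥0∞)) := by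
  refine iSup₂_le fun I hI => ?_
  have hsplit : ∑ e ∈ I, V e = ∑ i ∈ range (Fintype.card α), ∑ e ∈ I ∩ lay M i, V e := by
    rw [← sum_biUnion fun i _ j _ hij =>
      (lay_pairwise M hij).mono inter_subset_right inter_subset_right]
    refine sum_congr ?_ fun _ _ => rfl
    ext e
    simp only [mem_biUnion, mem_inter]
    refine ⟨fun he => ?_, fun ⟨i, _, h, _⟩ => h⟩
    obtain ⟨i, hi, hei⟩ := exists_lay M (indep_inter_loopSet M hI e he)
    exact ⟨i, hi, he, hei⟩
  have hA : ∑ i ∈ range (Fintype.card α), a i * ((I ∩ lay M i).card : ℝ≥0)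
      ≤ ∑ i ∈ range (Fintype.card α), a i * (lrk M i : ℝ≥0) := by
    rw [← NNReal.coe_le_coe]
    push_cast
    refine abel (fun k => NNReal.coe_le_coe.2 (ha k)) (fun k => (a k).2) fun k _ => ?_
    have := sum_card_inter_le M hI k
    rw [← sum_lrk M k] at this
    exact_mod_cast this
  have main : ∑ e ∈ I, V e ≤ ∑ i ∈ range (Fintype.card α),
      ((lrk M i : ℝ≥0) * a i + ∑ e ∈ lay M i, (V e - a i)) := by
    calc ∑ e ∈ I, V e = ∑ i ∈ range (Fintype.card α), ∑ e ∈ I ∩ lay M i, V e := hsplit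
      _ ≤ ∑ i ∈ range (Fintype.card α),
            (a i * ((I ∩ lay M i).card : ℝ≥0) + ∑ e ∈ lay M i, (V e - a i)) := by
          refine sum_le_sum fun i _ => ?_
          calc ∑ e ∈ I ∩ lay M i, V e ≤ ∑ e ∈ I ∩ lay M i, (a i + (V e - a i)) :=
                sum_le_sum fun e _ => le_add_tsub
            _ = a i * ((I ∩ lay M i).card : ℝ≥0) + ∑ e ∈ I ∩ lay M i, (V e - a i) := by
                rw [sum_add_distrib, sum_const, nsmul_eq_mul, mul_comm]
            _ ≤ _ := add_le_add le_rfl
                (sum_le_sum_of_subset_of_nonneg inter_subset_right fun _ _ _ => zero_le)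
      _ ≤ _ := by
          rw [sum_add_distrib, sum_add_distrib]
          exact add_le_add (hA.trans_eq (sum_congr rfl fun i _ => mul_comm _ _)) le_rfl
  exact_mod_cast main

end Vale.Agent.P331I
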