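import Mathlib

/-!
P331: thresholds with random tie-breaking, and comparable laws.
-/

namespace Vale.Agent.P331I

open MeasureTheory Set Filter
open scoped ENNReal NNReal Topology

/-- The uniform law on the unit interval. -/
noncomputable def unif : Measure ℝ := volume.restrict (Icc 0 1)

instance : IsProbabilityMeasure unif := ⟨by simp [unif]⟩

/-- `z` beats `θ`, the second coordinate breaking ties. -/
def above (θ z : ℝ≥0 × ℝ) : Prop := θ.1 < z.1 ∨ θ.1 = z.1 ∧ θ.2 < z.2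

lemma above_trans {a b c : ℝ≥0 × ℝ} (h1 : above a b) (h2 : above b c) : above a c := by
  rcases h1 with h1 | ⟨h1, h1'⟩ <;> rcases h2 with h2 | ⟨h2, h2'⟩
  · exact Or.inl (h1.trans h2)
  · exact Or.inl (h2 ▸ h1)
  · exact Or.inl (h1 ▸ h2)
  · exact Or.inr ⟨h1.trans h2, h1'.trans h2'⟩

lemma above_total {a b : ℝ≥0 × ℝ} (h : ¬ above a b) : a = b ∨ above b a := by
  unfold above at *
  rcases lt_trichotomy a.1 b.1 with h1 | h1 | h1
  · exact absurd (Or.inl h1) h
  · rcases lt_trichotomy a.2 b.2 with h2 | h2 | h2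
    · exact absurd (Or.inr ⟨h1, h2⟩) h
    · exact Or.inl (Prod.ext h1 h2)
    · exact Or.inr (Or.inr ⟨h1.symm, h2⟩)
  · exact Or.inr (Or.inl h1)

lemma above_mid {lo t z : ℝ≥0 × ℝ} (h1 : ¬ above lo t) (h2 : above lo z) : above t z := by
  rcases above_total h1 with h | h
  · exact h ▸ h2
  · exact above_trans h h2

lemma measurableSet_above_pair :
    MeasurableSet {p : (ℝ≥0 × ℝ) × (ℝ≥0 × ℝ) | above p.1 p.2} := by
  have m1 : Measurable fun p : (ℝ≥0 × ℝ) × (ℝ≥0 × ℝ) => p.1.1 := by fun_prop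
  have m2 : Measurable fun p : (ℝ≥0 × ℝ) × (ℝ≥0 × ℝ) => p.2.1 := by fun_prop
  have n1 : Measurable fun p : (ℝ≥0 × ℝ) × (ℝ≥0 × ℝ) => p.1.2 := by fun_prop
  have n2 : Measurable fun p : (ℝ≥0 × ℝ) × (ℝ≥0 × ℝ) => p.2.2 := by fun_prop
  exact (measurableSet_lt m1 m2).union
    ((measurableSet_eq_fun m1 m2).inter (measurableSet_lt n1 n2))

lemma measurableSet_above (θ : ℝ≥0 × ℝ) : MeasurableSet {z | above θ z} :=
  measurableSet_above_pair.preimage (f := fun z => (θ, z)) (by fun_prop)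

lemma unif_Iio {b : ℝ} (h0 : 0 ≤ b) (h1 : b ≤ 1) : unif (Iio b) = ENNReal.ofReal b := by
  rw [unif, Measure.restrict_apply measurableSet_Iio]
  have : Iio b ∩ Icc (0 : ℝ) 1 = Ico 0 b := by
    ext x
    simp only [mem_inter_iff, mem_Iio, mem_Icc, mem_Ico]
    grind
  rw [this, Real.volume_Ico, sub_zero]

lemma unif_Ioi {s : ℝ} (h0 : 0 ≤ s) (h1 : s ≤ 1) :
    unif (Ioi s) = ENNReal.ofReal (1 - s) := by
  rw [unif, Measure.restrict_apply measurableSet_Ioi]
  have : Ioi s ∩ Icc (0 : ℝ) 1 = Ioc s 1 := by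
    ext x
    simp only [mem_inter_iff, mem_Ioi, mem_Icc, mem_Ioc]
    grind
  rw [this, Real.volume_Ioc]

lemma prod_above (D : Measure ℝ≥0) [IsProbabilityMeasure D] {a : ℝ≥0} {s : ℝ} (h0 : 0 ≤ s)
    (h1 : s ≤ 1) :
    (D.prod unif) {z | above (a, s) z} = D (Ioi a) + D {a} * ENNReal.ofReal (1 - s) := by
  have hset : {z : ℝ≥0 × ℝ | above (a, s) z} = Ioi a ×ˢ univ ∪ {a} ×ˢ Ioi s := by
    ext z
    simp only [above, mem_setOf_eq, mem_union, mem_prod, mem_Ioi, mem_univ, and_true,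
      mem_singleton_iff]
    grind
  have hd : Disjoint (Ioi a ×ˢ (univ : Set ℝ)) ({a} ×ˢ Ioi s) := by
    rw [Set.disjoint_left]
    rintro z hz hz'
    simp only [mem_prod, mem_Ioi, mem_singleton_iff] at hz hz'
    exact absurd hz'.1 hz.1.ne'
  rw [hset, measure_union hd ((measurableSet_singleton a).prod measurableSet_Ioi),
    Measure.prod_prod, Measure.prod_prod, measure_univ, mul_one, unif_Ioi h0 h1]

lemma measure_Ioi_le_of_right (D : Measure ℝ≥0) {a : ℝ≥0} {x : ℝ≥0∞}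
    (h : ∀ t, a < t → D (Ioi t) ≤ x) : D (Ioi a) ≤ x := by
  obtain ⟨u, hu, hua, hlim⟩ := exists_seq_strictAnti_tendsto a
  have hU : Ioi a = ⋃ n, Ioi (u n) := by
    ext t
    simp only [mem_Ioi, mem_iUnion]
    refine ⟨fun ht => ?_, fun ⟨n, hn⟩ => (hua n).trans hn⟩
    exact ((hlim.eventually (eventually_lt_nhds ht)).exists)
  rw [hU, Monotone.measure_iUnion fun m n hmn => Ioi_subset_Ioi (hu.antitone hmn)]
  exact iSup_le fun n => h _ (hua n)

lemma le_measure_Ici_of_left (D : Measure ℝ≥0) [IsProbabilityMeasure D] {a : ℝ≥0} {x : ℝ≥0∞}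
    (hx : x ≤ 1) (h : ∀ t, t < a → x ≤ D (Ioi t)) : x ≤ D (Ici a) := by
  rcases eq_or_lt_of_le (show (0 : ℝ≥0) ≤ a from zero_le) with h0 | h0
  · subst h0
    have : Ici (0 : ℝ≥0) = univ := eq_univ_of_forall fun t => show (0 : ℝ≥0) ≤ t from zero_le
    rw [this, measure_univ]
    exact hx
  obtain ⟨u, hu, hua, hlim⟩ := exists_seq_strictMono_tendsto' h0
  have hU : Ici a = ⋂ n, Ioi (u n) := by
    ext t
    simp only [mem_Ici, mem_iInter, mem_Ioi]
    refine ⟨fun ht n => lt_of_lt_of_le (hua n).2 ht, fun ht => ?_⟩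
    exact le_of_tendsto hlim (Eventually.of_forall fun n => (ht n).le)
  rw [hU, Antitone.measure_iInter (fun m n hmn => Ioi_subset_Ioi (hu.monotone hmn))
    (fun n => measurableSet_Ioi.nullMeasurableSet) ⟨0, measure_ne_top _ _⟩]
  exact le_iInf fun n => h _ (hua n).2

/-- The threshold value above which the mass drops to at most `x`. -/
noncomputable def qa (D : Measure ℝ≥0) (x : ℝ) : ℝ≥0 :=
  sInf {t | D (Ioi t) ≤ ENNReal.ofReal x}

lemma qa_nonempty (D : Measure ℝ≥0) [IsProbabilityMeasure D] {x : ℝ} (hx : 0 < x) :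
    {t : ℝ≥0 | D (Ioi t) ≤ ENNReal.ofReal x}.Nonempty := by
  have hI : (⋂ n : ℕ, Ioi ((n : ℝ≥0))) = (∅ : Set ℝ≥0) := by
    refine eq_empty_of_forall_notMem fun t ht => ?_
    obtain ⟨n, hn⟩ := exists_nat_ge t
    exact absurd (mem_iInter.1 ht n) (not_lt.2 hn)
  have hlim : Tendsto (fun n : ℕ => D (Ioi ((n : ℝ≥0)))) atTop (𝓝 0) := by
    have := tendsto_measure_iInter_atTop (μ := D) (s := fun n : ℕ => Ioi ((n : ℝ≥0)))
      (fun n => measurableSet_Ioi.nullMeasurableSet)
      (fun m n hmn => Ioi_subset_Ioi (Nat.cast_le.2 hmn)) ⟨0, measure_ne_top _ _⟩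
    rw [hI, measure_empty] at this
    exact this
  obtain ⟨n, hn⟩ := (hlim.eventually (eventually_lt_nhds (ENNReal.ofReal_pos.2 hx))).exists
  exact ⟨_, hn.le⟩

lemma qa_anti (D : Measure ℝ≥0) [IsProbabilityMeasure D] {x y : ℝ} (hx : 0 < x) (hxy : x ≤ y) :
    qa D y ≤ qa D x :=
  csInf_le_csInf (OrderBot.bddBelow _) (qa_nonempty D hx) fun _ ht =>
    le_trans ht (ENNReal.ofReal_le_ofReal hxy)

/-- The randomised threshold of mass exactly `x`. -/
lemma exists_tie (D : Measure ℝ≥0) [IsProbabilityMeasure D] {x : ℝ} (hx : 0 < x) (hx1 : x ≤ 1) :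
    ∃ s : ℝ, 0 ≤ s ∧ s ≤ 1 ∧
      (D.prod unif) {z | above (qa D x, s) z} = ENNReal.ofReal x := by
  set a := qa D x with ha
  have h1 : D (Ioi a) ≤ ENNReal.ofReal x := by
    refine measure_Ioi_le_of_right D fun t ht => ?_
    obtain ⟨u, hu, hut⟩ := exists_lt_of_csInf_lt (qa_nonempty D hx) ht
    exact (measure_mono (Ioi_subset_Ioi hut.le)).trans hu
  have h2 : ENNReal.ofReal x ≤ D (Ici a) :=
    le_measure_Ici_of_left D (ENNReal.ofReal_le_one.2 hx1) fun t ht =>
      (not_le.1 fun hle => (not_le.2 ht) (show qa D x ≤ t from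
        csInf_le (s := {t | D (Ioi t) ≤ ENNReal.ofReal x}) (OrderBot.bddBelow _) hle)).le
  have h3 : D (Ici a) = D {a} + D (Ioi a) := by
    rw [← measure_union (by simp) measurableSet_Ioi, singleton_union, Ioi_insert]
  set g := (D (Ioi a)).toReal
  set w := (D {a}).toReal
  have hg : D (Ioi a) = ENNReal.ofReal g := (ENNReal.ofReal_toReal (measure_ne_top _ _)).symm
  have hw : D {a} = ENNReal.ofReal w := (ENNReal.ofReal_toReal (measure_ne_top _ _)).symm
  have hg0 : 0 ≤ g := ENNReal.toReal_nonneg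
  have hw0 : 0 ≤ w := ENNReal.toReal_nonneg
  have hgx : g ≤ x := by
    rw [hg, ENNReal.ofReal_le_ofReal_iff hx.le] at h1
    exact h1
  have hxw : x ≤ w + g := by
    rw [h3, hg, hw, ← ENNReal.ofReal_add hw0 hg0, ENNReal.ofReal_le_ofReal_iff (by linarith)] at h2
    exact h2
  rcases eq_or_lt_of_le hw0 with hw00 | hwp
  · refine ⟨0, le_rfl, zero_le_one, ?_⟩
    rw [prod_above D le_rfl zero_le_one, hg, hw, ← hw00]
    simp only [ENNReal.ofReal_zero, zero_mul, add_zero]
    rw [show g = x by linarith]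
  · have hd0 : 0 ≤ (x - g) / w := div_nonneg (by linarith) hw0
    have hd1 : (x - g) / w ≤ 1 := (div_le_one hwp).2 (by linarith)
    refine ⟨1 - (x - g) / w, by linarith, by linarith, ?_⟩
    rw [prod_above D (by linarith) (by linarith), hg, hw, sub_sub_cancel,
      ← ENNReal.ofReal_mul hw0, ← ENNReal.ofReal_add hg0 (by positivity),
      mul_div_cancel₀ _ hwp.ne']
    congr 1
    ring

section compare

variable {D D' : Measure ℝ≥0} [IsProbabilityMeasure D] [IsProbabilityMeasure D'] {κ : ℝ≥0}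

lemma above_comp (hκ : 1 ≤ κ) (h : ∀ t, D (Ioi t) ≤ κ * D' (Ioi t)) {a : ℝ≥0} {s : ℝ}
    (h0 : 0 ≤ s) (h1 : s ≤ 1) :
    (D.prod unif) {z | above (a, s) z} ≤ κ * (D'.prod unif) {z | above (a, s) z} := by
  have hK : ((κ : ℝ≥0∞)) ≠ 0 := by
    simpa using (lt_of_lt_of_le zero_lt_one hκ).ne'
  have hIci : D (Ici a) ≤ κ * D' (Ici a) := by
    have key : D (Ici a) / κ ≤ D' (Ici a) := by
      refine le_measure_Ici_of_left D' ?_ fun t ht => ?_
      · refine ENNReal.div_le_of_le_mul ?_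
        rw [one_mul]
        exact prob_le_one.trans (by exact_mod_cast hκ)
      · refine ENNReal.div_le_of_le_mul ?_
        rw [mul_comm]
        exact (measure_mono (Ici_subset_Ioi.2 ht)).trans (h t)
    rw [mul_comm]
    exact (ENNReal.div_le_iff_le_mul (Or.inl hK) (Or.inl ENNReal.coe_ne_top)).1 key
  have split : ∀ (E : Measure ℝ≥0), E (Ioi a) + E {a} * ENNReal.ofReal (1 - s)
      = ENNReal.ofReal s * E (Ioi a) + ENNReal.ofReal (1 - s) * E (Ici a) := by
    intro E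
    have h3 : E (Ici a) = E {a} + E (Ioi a) := by
      rw [← measure_union (by simp) measurableSet_Ioi, singleton_union, Ioi_insert]
    have h4 : ENNReal.ofReal s + ENNReal.ofReal (1 - s) = 1 := by
      rw [← ENNReal.ofReal_add h0 (by linarith), add_sub_cancel, ENNReal.ofReal_one]
    calc E (Ioi a) + E {a} * ENNReal.ofReal (1 - s)
        = (ENNReal.ofReal s + ENNReal.ofReal (1 - s)) * E (Ioi a)
            + E {a} * ENNReal.ofReal (1 - s) := by rw [h4, one_mul]
      _ = _ := by rw [h3]; ring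
  rw [prod_above D h0 h1, prod_above D' h0 h1, split D, split D']
  calc ENNReal.ofReal s * D (Ioi a) + ENNReal.ofReal (1 - s) * D (Ici a)
      ≤ ENNReal.ofReal s * (κ * D' (Ioi a)) + ENNReal.ofReal (1 - s) * (κ * D' (Ici a)) := by
        gcongr
        exact h a
    _ = _ := by ring

lemma excess_comp (h : ∀ t, D (Ioi t) ≤ κ * D' (Ioi t)) (a : ℝ≥0) :
    ∫⁻ v, ((v - a : ℝ≥0) : ℝ≥0∞) ∂D ≤ κ * ∫⁻ v, ((v - a : ℝ≥0) : ℝ≥0∞) ∂D' := by
  have key : ∀ (E : Measure ℝ≥0), ∫⁻ v, ((v - a : ℝ≥0) : ℝ≥0∞) ∂E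
      = ∫⁻ t in Ioi (0 : ℝ), E (Ioi (a + t.toNNReal)) := by
    intro E
    have h1 := lintegral_eq_lintegral_meas_lt (f := fun v : ℝ≥0 => ((v - a : ℝ≥0) : ℝ)) E
      (Eventually.of_forall fun v => NNReal.coe_nonneg _) (by fun_prop)
    simp only [ENNReal.ofReal_coe_nnreal] at h1
    rw [h1]
    refine setLIntegral_congr_fun measurableSet_Ioi fun t ht => ?_
    congr 1
    ext v
    simp only [mem_setOf_eq, mem_Ioi]
    rw [← NNReal.coe_lt_coe, NNReal.coe_add, Real.coe_toNNReal t (le_of_lt ht)]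
    rcases le_total a v with hav | hav
    · rw [NNReal.coe_sub hav]
      constructor <;> intro <;> linarith
    · rw [tsub_eq_zero_of_le hav]
      have : (v : ℝ) ≤ a := hav
      have ht' : (0 : ℝ) < t := ht
      simp only [NNReal.coe_zero]
      constructor <;> intro <;> linarith
  rw [key D, key D', ← lintegral_const_mul' _ _ ENNReal.coe_ne_top]
  exact setLIntegral_mono' measurableSet_Ioi fun t _ => h _

end compare

/-- Value collected above a threshold. -/
lemma value_above (D : Measure ℝ≥0) [IsProbabilityMeasure D] (θ : ℝ≥0 × ℝ) :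
    ∫⁻ z, {z | above θ z}.indicator (fun z => (z.1 : ℝ≥0∞)) z ∂(D.prod unif)
      = θ.1 * (D.prod unif) {z | above θ z} + ∫⁻ v, ((v - θ.1 : ℝ≥0) : ℝ≥0∞) ∂D := by
  have hpt : ∀ z : ℝ≥0 × ℝ, {z | above θ z}.indicator (fun z => (z.1 : ℝ≥0∞)) z
      = {z | above θ z}.indicator (fun _ => (θ.1 : ℝ≥0∞)) z + ((z.1 - θ.1 : ℝ≥0) : ℝ≥0∞) := by
    intro z
    by_cases hz : above θ z
    · have hle : θ.1 ≤ z.1 := by
        rcases hz with h | h
        · exact h.le
        · exact h.1.le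
      rw [indicator_of_mem (show z ∈ {z | above θ z} from hz),
        indicator_of_mem (show z ∈ {z | above θ z} from hz), ← ENNReal.coe_add,
        add_tsub_cancel_of_le hle]
    · have hle : z.1 ≤ θ.1 := not_lt.1 fun h => hz (Or.inl h)
      rw [indicator_of_notMem (show z ∉ {z | above θ z} from hz),
        indicator_of_notMem (show z ∉ {z | above θ z} from hz), tsub_eq_zero_of_le hle]
      simp
  simp only [hpt]
  rw [lintegral_add_left (measurable_const.indicator (measurableSet_above θ)),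
    lintegral_indicator_const (measurableSet_above θ)]
  congr 1
  have hm : Measurable fun v : ℝ≥0 => ((v - θ.1 : ℝ≥0) : ℝ≥0∞) := by fun_prop
  have hfst : (D.prod unif).map Prod.fst = D := by simp
  conv_rhs => rw [← hfst]
  rw [lintegral_map hm measurable_fst]

end Vale.Agent.P331I
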