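import Vale.Agent.P331I.Greedy
import Vale.Agent.P331I.Quantile

/-!
P331: one sample suffices for comparable laws, on every finite matroid.
-/

namespace Vale.Agent.P331I

open MeasureTheory Finset Function
open scoped ENNReal NNReal

universe u

variable {α : Type u} [Fintype α] [DecidableEq α]

/-- The seed: tie-breaks and coins for the samples, tie-breaks for the values. -/
abbrev Seed (α : Type u) : Type u := (α → ℝ × ℝ) × (α → ℝ)

/-- The seed's law. -/
noncomputable def seedLaw (α : Type u) [Fintype α] : Measure (Seed α) :=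
  (Measure.pi fun _ : α => unif.prod unif).prod (Measure.pi fun _ : α => unif)

instance : IsProbabilityMeasure (seedLaw α) := by
  unfold seedLaw; infer_instance

/-- The subsampling rate of a layer. -/
noncomputable def rate (M : Matroid α) (i : ℕ) : ℝ := ((lrk M i : ℝ))⁻¹

/-- Beats every kept sample of the layer. -/
def cand (M : Matroid α) (S : α → ℝ≥0) (r : Seed α) (i : ℕ) (e : α) (v : ℝ≥0) : Prop :=
  ∀ f ∈ lay M i, (r.1 f).2 < rate M i → above (S f, (r.1 f).1) (v, r.2 e)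

/-- The rule. -/
def ruleDec (M : Matroid α) : Policy α (Seed α) := layerDec M (cand M)

lemma measurableSet_ruleDec (M : Matroid α) (pre : List α) (A : Finset α) (e : α) :
    MeasurableSet {x : (α → ℝ≥0) × Seed α × (α → ℝ≥0) |
      ruleDec M x.1 x.2.1 (pre.map fun a => (a, x.2.2 a)) A e (x.2.2 e)} := by
  have hcand : ∀ i, MeasurableSet {x : (α → ℝ≥0) × Seed α × (α → ℝ≥0) |
      cand M x.1 x.2.1 i e (x.2.2 e)} := by
    intro i
    have : {x : (α → ℝ≥0) × Seed α × (α → ℝ≥0) | cand M x.1 x.2.1 i e (x.2.2 e)}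
        = ⋂ f ∈ lay M i, ({x | (x.2.1.1 f).2 < rate M i}ᶜ
          ∪ (fun x : (α → ℝ≥0) × Seed α × (α → ℝ≥0) =>
              ((x.1 f, (x.2.1.1 f).1), (x.2.2 e, x.2.1.2 e))) ⁻¹' {p | above p.1 p.2}) := by
      ext x
      simp only [cand, Set.mem_ofPred_eq, Set.mem_iInter, Set.mem_union, Set.mem_compl_iff,
        Set.mem_preimage]
      exact forall₂_congr fun f _ => imp_iff_not_or
    rw [this]
    exact Finset.measurableSet_biInter _ fun f _ =>
      (measurableSet_lt (by fun_prop : Measurable fun x : (α → ℝ≥0) × Seed α × (α → ℝ≥0) =>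
        (x.2.1.1 f).2) measurable_const).compl.union
        (measurableSet_above_pair.preimage (by fun_prop))
  have : {x : (α → ℝ≥0) × Seed α × (α → ℝ≥0) |
      ruleDec M x.1 x.2.1 (pre.map fun a => (a, x.2.2 a)) A e (x.2.2 e)}
      = ⋃ i ∈ range (Fintype.card α), ({_x | e ∈ lay M i ∧
          rho M (insert e (Cs M i ∪ (A ∩ lay M i))) = rho M (Cs M i) + (A ∩ lay M i).card + 1}
          ∩ {x | cand M x.1 x.2.1 i e (x.2.2 e)}) := by
    ext x
    simp only [ruleDec, layerDec, Set.mem_ofPred_eq, Set.mem_iUnion, Set.mem_inter_iff,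
      exists_prop]
    exact exists_congr fun i => by tauto
  rw [this]
  exact Finset.measurableSet_biUnion _ fun i _ => (MeasurableSet.const _).inter (hcand i)

lemma lintegral_mul_eval {X : α → Type*} [∀ a, MeasurableSpace (X a)] (μ : ∀ a, Measure (X a))
    [∀ a, IsProbabilityMeasure (μ a)] (e : α) {φ : X e → ℝ≥0∞} (hφ : Measurable φ)
    {h : (∀ a, X a) → ℝ≥0∞} (hh : Measurable h) (hinv : ∀ x y, h (update x e y) = h x) :
    ∫⁻ x, h x * φ (x e) ∂Measure.pi μ = (∫⁻ y, φ y ∂μ e) * ∫⁻ x, h x ∂Measure.pi μ := by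
  rw [← lintegral_const_mul _ hh]
  refine lintegral_eq_of_lmarginal_eq {e} (hh.mul (hφ.comp (measurable_pi_apply e)))
    (hh.const_mul _) ?_
  funext x
  simp only [lmarginal_singleton, hinv, update_self]
  rw [lintegral_const_mul _ hφ, lintegral_const, measure_univ, mul_one, mul_comm]

section setup

variable (M : Matroid α) (D : α → Measure ℝ≥0)

/-- A sample point with its tie-break. -/
def pt (z : ℝ≥0 × (ℝ × ℝ)) : ℝ≥0 × ℝ := (z.1, z.2.1)

/-- No kept sample beats `lo`, some kept sample beats `hi`. -/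
def Ev (i : ℕ) (lo hi : ℝ≥0 × ℝ) : Set (α → ℝ≥0 × (ℝ × ℝ)) :=
  {z | (∀ f ∈ lay M i, ¬ (above lo (pt (z f)) ∧ (z f).2.2 < rate M i)) ∧
    ∃ f ∈ lay M i, above hi (pt (z f)) ∧ (z f).2.2 < rate M i}

open Classical in
/-- The layer's elements beating `θ`. -/
noncomputable def Hs (i : ℕ) (θ : ℝ≥0 × ℝ) (z : α → ℝ≥0 × ℝ) : Finset α :=
  (lay M i).filter fun f => above θ (z f)

open Classical in
/-- Value surely collected in a layer. -/
noncomputable def gI (i : ℕ) (lo hi : ℝ≥0 × ℝ) (z : α → ℝ≥0 × ℝ) : ℝ≥0∞ :=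
  ∑ e ∈ lay M i, (if Sp M i e (Hs M i hi z) then 0 else 1) *
    {w | above lo w}.indicator (fun w => (w.1 : ℝ≥0∞)) (z e)

lemma measurableSet_kept (i : ℕ) (θ : ℝ≥0 × ℝ) :
    MeasurableSet {z : ℝ≥0 × (ℝ × ℝ) | above θ (pt z) ∧ z.2.2 < rate M i} :=
  ((measurableSet_above θ).preimage (f := pt) (by unfold pt; fun_prop)).inter
    (measurableSet_lt
      (by fun_prop : Measurable fun z : ℝ≥0 × (ℝ × ℝ) => z.2.2) measurable_const)

lemma measurableSet_Ev (i : ℕ) (lo hi : ℝ≥0 × ℝ) : MeasurableSet (Ev M i lo hi) := by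
  have : Ev M i lo hi
      = (⋂ f ∈ lay M i, (fun z : α → ℝ≥0 × (ℝ × ℝ) => z f) ⁻¹'
          {w | above lo (pt w) ∧ w.2.2 < rate M i}ᶜ) ∩
        ⋃ f ∈ lay M i, (fun z : α → ℝ≥0 × (ℝ × ℝ) => z f) ⁻¹'
          {w | above hi (pt w) ∧ w.2.2 < rate M i} := by
    ext z
    simp only [Ev, Set.mem_ofPred_eq, Set.mem_inter_iff, Set.mem_iInter, Set.mem_iUnion,
      Set.mem_preimage, Set.mem_compl_iff, exists_prop]
  rw [this]
  exact (Finset.measurableSet_biInter _ fun f _ =>
      (measurableSet_kept M i lo).compl.preimage (measurable_pi_apply f)).inter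
    (Finset.measurableSet_biUnion _ fun f _ =>
      (measurableSet_kept M i hi).preimage (measurable_pi_apply f))

lemma measurable_Hs (i : ℕ) (θ : ℝ≥0 × ℝ) (P : Finset α → Prop) :
    MeasurableSet {z : α → ℝ≥0 × ℝ | P (Hs M i θ z)} := by
  classical
  let B : (α → ℝ≥0 × ℝ) → (α → Bool) := fun z f => decide (above θ (z f))
  have hB : Measurable B := by
    refine measurable_pi_lambda _ fun f => measurable_to_bool ?_
    simpa [B, Set.preimage] using (measurableSet_above θ).preimage (measurable_pi_apply f)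
  have : {z : α → ℝ≥0 × ℝ | P (Hs M i θ z)}
      = B ⁻¹' {q | P ((lay M i).filter fun f => q f = true)} := by
    ext z
    simp [B, Hs]
  rw [this]
  exact hB (Set.toFinite _).measurableSet

lemma measurable_gI (i : ℕ) (lo hi : ℝ≥0 × ℝ) : Measurable (gI M i lo hi) := by
  classical
  refine Finset.measurable_sum _ fun e _ => ?_
  refine Measurable.mul (Measurable.ite (measurable_Hs M i hi fun T => Sp M i e T)
    measurable_const measurable_const) ?_
  exact ((measurable_fst.coe_nnreal_ennreal).indicator (measurableSet_above lo)).comp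
    (measurable_pi_apply e)

/-- The pointwise guarantee. -/
lemma worst_ge (lo hi : ℕ → ℝ≥0 × ℝ) (S V : α → ℝ≥0) (r : Seed α) :
    ∑ i ∈ range (Fintype.card α),
      (Ev M i (lo i) (hi i)).indicator (fun _ => (1 : ℝ≥0∞)) (fun e => (S e, r.1 e)) *
        gI M i (lo i) (hi i) (fun e => (V e, r.2 e))
      ≤ worst M (ruleDec M) S r V := by
  classical
  refine le_iInf fun l => ?_
  set F := run M (ruleDec M) S r V [] ∅ l.1
  calc _ ≤ ∑ i ∈ range (Fintype.card α), ∑ e ∈ F ∩ lay M i, (V e : ℝ≥0∞) := ?_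
    _ ≤ ∑ e ∈ F, (V e : ℝ≥0∞) := by
      rw [← sum_biUnion fun i _ j _ hij =>
        (lay_pairwise M hij).mono inter_subset_right inter_subset_right]
      exact sum_le_sum_of_subset fun e he => by
        obtain ⟨i, -, hi⟩ := mem_biUnion.1 he
        exact (mem_inter.1 hi).1
  refine sum_le_sum fun i hi' => ?_
  by_cases hE : (fun e => (S e, r.1 e)) ∈ Ev M i (lo i) (hi i)
  swap
  · rw [Set.indicator_of_notMem hE, zero_mul]
    exact zero_le
  rw [Set.indicator_of_mem hE, one_mul, gI]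
  obtain ⟨hE1, f0, hf0, hf0a, hf0b⟩ := hE
  have hhi : ∀ x ∈ lay M i, cand M S r i x (V x) → x ∈ Hs M i (hi i) (fun e => (V e, r.2 e)) := by
    intro x hx hc
    exact mem_filter.2 ⟨hx, above_trans hf0a (hc f0 hf0 hf0b)⟩
  calc _ ≤ ∑ e ∈ lay M i, if e ∈ F then (V e : ℝ≥0∞) else 0 := ?_
    _ = ∑ e ∈ F ∩ lay M i, (V e : ℝ≥0∞) := by
      rw [← sum_filter]
      refine sum_congr ?_ fun _ _ => rfl
      ext e
      simp [and_comm]
  refine sum_le_sum fun e he => ?_
  by_cases hsp : Sp M i e (Hs M i (hi i) fun e => (V e, r.2 e))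
  · rw [if_pos hsp, zero_mul]
    exact zero_le
  rw [if_neg hsp, one_mul]
  by_cases hlo : above (lo i) (V e, r.2 e)
  · have hc : cand M S r i e (V e) := fun f hf hfb =>
      above_mid (fun hab => hE1 f hf ⟨hab, hfb⟩) hlo
    have hmem : e ∈ F := mem_run_of_not_Sp M (cand M) S r V l.2.2 hi' he hc hhi hsp
    rw [Set.indicator_of_mem (show (V e, r.2 e) ∈ {w | above (lo i) w} from hlo), if_pos hmem]
  · rw [Set.indicator_of_notMem (show (V e, r.2 e) ∉ {w | above (lo i) w} from hlo)]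
    exact zero_le

variable [∀ e, IsProbabilityMeasure (D e)]

/-- Samples with their seeds. -/
noncomputable def sampleLaw (e : α) : Measure (ℝ≥0 × (ℝ × ℝ)) := (D e).prod (unif.prod unif)

/-- Values with their seeds. -/
noncomputable def valueLaw (e : α) : Measure (ℝ≥0 × ℝ) := (D e).prod unif

instance (e : α) : IsProbabilityMeasure (sampleLaw D e) := by unfold sampleLaw; infer_instance

instance (e : α) : IsProbabilityMeasure (valueLaw D e) := by unfold valueLaw; infer_instance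

lemma kept_measure (e : α) (i : ℕ) (θ : ℝ≥0 × ℝ) (h0 : 0 ≤ rate M i) (h1 : rate M i ≤ 1) :
    sampleLaw D e {z | above θ (pt z) ∧ z.2.2 < rate M i}
      = valueLaw D e {z | above θ z} * ENNReal.ofReal (rate M i) := by
  have hmp := measurePreserving_prodAssoc (D e) unif unif
  have h2 := hmp.measure_preimage (measurableSet_kept M i θ).nullMeasurableSet
  rw [sampleLaw, ← h2, valueLaw, ← unif_Iio h0 h1, ← Measure.prod_prod]
  congr 1

lemma ev_bound {K : ℝ≥0} (hK : 1 ≤ K) (hcomp : ∀ e f t, D e (Set.Ioi t) ≤ K * D f (Set.Ioi t))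
    (e0 : α) (i : ℕ) (hne : (lay M i).Nonempty) {lo hi : ℝ≥0 × ℝ}
    (hlo0 : 0 ≤ lo.2) (hlo1 : lo.2 ≤ 1) (hhi0 : 0 ≤ hi.2) (hhi1 : hi.2 ≤ 1)
    (hlo : valueLaw D e0 {z | above lo z}
      = ENNReal.ofReal ((lrk M i : ℝ) / (6 * (K : ℝ) ^ 3 * (lay M i).card)))
    (hhi : valueLaw D e0 {z | above hi z}
      = ENNReal.ofReal ((lrk M i : ℝ) / (2 * (K : ℝ) * (lay M i).card))) :
    ENNReal.ofReal (1 / (6 * (K : ℝ) ^ 2)) ≤ Measure.pi (sampleLaw D) (Ev M i lo hi) := by
  classical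
  have hK' : (1 : ℝ) ≤ K := by exact_mod_cast hK
  have hK0 : (0 : ℝ) < K := by linarith
  have hn : (0 : ℝ) < (lay M i).card := by exact_mod_cast card_pos.2 hne
  have hr : (1 : ℝ) ≤ lrk M i := by exact_mod_cast lrk_pos M hne
  have hr0 : (0 : ℝ) < lrk M i := by linarith
  have hrn : (lrk M i : ℝ) ≤ (lay M i).card := by exact_mod_cast lrk_le_card M i
  have hb0 : 0 ≤ rate M i := inv_nonneg.2 hr0.le
  have hb1 : rate M i ≤ 1 := inv_le_one_of_one_le₀ hr
  have hlo_le : ∀ f, sampleLaw D f {z | above lo (pt z) ∧ z.2.2 < rate M i}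
      ≤ ENNReal.ofReal (1 / (6 * (K : ℝ) ^ 2 * (lay M i).card)) := by
    intro f
    rw [kept_measure M D f i lo hb0 hb1]
    calc valueLaw D f {z | above lo z} * ENNReal.ofReal (rate M i)
        ≤ K * valueLaw D e0 {z | above lo z} * ENNReal.ofReal (rate M i) :=
          mul_le_mul' (above_comp hK (hcomp f e0) hlo0 hlo1) le_rfl
      _ = _ := by
          rw [hlo, ← ENNReal.ofReal_coe_nnreal, ← ENNReal.ofReal_mul hK0.le,
            ← ENNReal.ofReal_mul (by positivity), rate]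
          congr 1
          field_simp
  set y : ℝ := 1 / (2 * (K : ℝ) ^ 2 * (lay M i).card) with hy
  have hy0 : 0 ≤ y := by positivity
  have hhi_ge : ∀ f, ENNReal.ofReal y
      ≤ sampleLaw D f {z | above hi (pt z) ∧ z.2.2 < rate M i} := by
    intro f
    rw [kept_measure M D f i hi hb0 hb1]
    have h1 : ENNReal.ofReal ((lrk M i : ℝ) / (2 * (K : ℝ) * (lay M i).card))
        ≤ K * valueLaw D f {z | above hi z} := hhi ▸ above_comp hK (hcomp e0 f) hhi0 hhi1
    have h2 : ENNReal.ofReal ((lrk M i : ℝ) / (2 * (K : ℝ) ^ 2 * (lay M i).card))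
        ≤ valueLaw D f {z | above hi z} := by
      refine (ENNReal.mul_le_mul_iff_right (a := (K : ℝ≥0∞)) ?_ ENNReal.coe_ne_top).1 ?_
      · simpa using (lt_of_lt_of_le zero_lt_one hK).ne'
      · refine le_trans (le_of_eq ?_) h1
        rw [← ENNReal.ofReal_coe_nnreal, ← ENNReal.ofReal_mul hK0.le]
        congr 1
        field_simp
    refine le_trans (le_of_eq ?_) (mul_le_mul' h2 le_rfl)
    rw [← ENNReal.ofReal_mul (by positivity), hy, rate]
    congr 1
    field_simp
  set P := Measure.pi (sampleLaw D)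
  set A : Set (α → ℝ≥0 × (ℝ × ℝ)) := ⋃ f ∈ lay M i, (fun z : α → ℝ≥0 × (ℝ × ℝ) => z f) ⁻¹'
    {w | above lo (pt w) ∧ w.2.2 < rate M i}
  set B : Set (α → ℝ≥0 × (ℝ × ℝ)) := Set.univ.pi fun f =>
    if f ∈ lay M i then {w | above hi (pt w) ∧ w.2.2 < rate M i}ᶜ else Set.univ
  have hcover : (Set.univ : Set (α → ℝ≥0 × (ℝ × ℝ))) ⊆ Ev M i lo hi ∪ A ∪ B := by
    intro z _
    by_cases hA : z ∈ A
    · exact Or.inl (Or.inr hA)
    by_cases hB : z ∈ B
    · exact Or.inr hB
    refine Or.inl (Or.inl ⟨fun f hf hbad => hA (Set.mem_biUnion hf hbad), ?_⟩)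
    by_contra hno
    refine hB fun f _ => ?_
    by_cases hf : f ∈ lay M i
    · simp only [if_pos hf]
      exact fun h => hno ⟨f, hf, h⟩
    · simp only [if_neg hf]
      trivial
  have hA : P A ≤ ENNReal.ofReal (1 / (6 * (K : ℝ) ^ 2)) := by
    refine (measure_biUnion_finset_le _ _).trans ?_
    calc ∑ f ∈ lay M i, P ((fun z : α → ℝ≥0 × (ℝ × ℝ) => z f) ⁻¹'
          {w | above lo (pt w) ∧ w.2.2 < rate M i})
        ≤ ∑ _f ∈ lay M i, ENNReal.ofReal (1 / (6 * (K : ℝ) ^ 2 * (lay M i).card)) := by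
          refine sum_le_sum fun f _ => ?_
          have := (measurePreserving_eval (sampleLaw D) f).measure_preimage
            (measurableSet_kept M i lo).nullMeasurableSet
          exact this.trans_le (hlo_le f)
      _ = _ := by
          rw [sum_const, nsmul_eq_mul, ← ENNReal.ofReal_natCast, ← ENNReal.ofReal_mul hn.le]
          congr 1
          field_simp
  have hyn : (lay M i).card * y = 1 / (2 * (K : ℝ) ^ 2) := by
    rw [hy]; field_simp
  have hB : P B ≤ ENNReal.ofReal (1 / (1 + 1 / (2 * (K : ℝ) ^ 2))) := by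
    have hy1 : y ≤ 1 := by
      have h1 : (1 : ℝ) ≤ (lay M i).card := by linarith
      rw [hy, div_le_one (by positivity)]
      nlinarith [sq_nonneg ((K : ℝ) - 1)]
    calc P B = ∏ f, sampleLaw D f
          (if f ∈ lay M i then {w | above hi (pt w) ∧ w.2.2 < rate M i}ᶜ else Set.univ) :=
          Measure.pi_pi _ _
      _ = ∏ f ∈ lay M i, sampleLaw D f {w | above hi (pt w) ∧ w.2.2 < rate M i}ᶜ := by
          rw [← Finset.prod_subset (subset_univ (lay M i))]
          · exact prod_congr rfl fun f hf => by rw [if_pos hf]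
          · intro f _ hf
            rw [if_neg hf, measure_univ]
      _ ≤ ∏ _f ∈ lay M i, ENNReal.ofReal (1 - y) := by
          refine prod_le_prod' fun f _ => ?_
          rw [prob_compl_eq_one_sub (measurableSet_kept M i hi), ENNReal.ofReal_sub _ hy0,
            ENNReal.ofReal_one]
          exact tsub_le_tsub_left (hhi_ge f) _
      _ = ENNReal.ofReal ((1 - y) ^ (lay M i).card) := by
          rw [prod_const, ENNReal.ofReal_pow (by linarith)]
      _ ≤ _ := by
          refine ENNReal.ofReal_le_ofReal ?_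
          rw [← hyn, le_div_iff₀ (by positivity)]
          calc (1 - y) ^ (lay M i).card * (1 + (lay M i).card * y)
              ≤ (1 - y) ^ (lay M i).card * (1 + y) ^ (lay M i).card :=
                mul_le_mul_of_nonneg_left (one_add_mul_le_pow (by linarith) _)
                  (pow_nonneg (by linarith) _)
            _ = ((1 - y) * (1 + y)) ^ (lay M i).card := by rw [mul_pow]
            _ ≤ 1 := pow_le_one₀ (by nlinarith) (by nlinarith)
  have h1 : (1 : ℝ≥0∞) ≤ P (Ev M i lo hi) + P A + P B := by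
    calc (1 : ℝ≥0∞) = P Set.univ := measure_univ.symm
      _ ≤ P (Ev M i lo hi ∪ A ∪ B) := measure_mono hcover
      _ ≤ _ := (measure_union_le _ _).trans (add_le_add (measure_union_le _ _) le_rfl)
  have hfin : P (Ev M i lo hi) ≠ ⊤ := measure_ne_top _ _
  rw [← ENNReal.ofReal_toReal hfin] at h1 ⊢
  refine ENNReal.ofReal_le_ofReal ?_
  have h2 := h1.trans (add_le_add (add_le_add le_rfl hA) hB)
  rw [← ENNReal.ofReal_add ENNReal.toReal_nonneg (by positivity),
    ← ENNReal.ofReal_add (by positivity) (by positivity), ENNReal.one_le_ofReal] at h2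
  have h3 : 1 / (1 + 1 / (2 * (K : ℝ) ^ 2)) ≤ 1 - 2 * (1 / (6 * (K : ℝ) ^ 2)) := by
    have hK2 : (1 : ℝ) ≤ (K : ℝ) ^ 2 := one_le_pow₀ hK'
    rw [div_le_iff₀ (by positivity)]
    field_simp
    nlinarith
  linarith

lemma gI_bound {K : ℝ≥0} (hK : 1 ≤ K) (hcomp : ∀ e f t, D e (Set.Ioi t) ≤ K * D f (Set.Ioi t))
    (e0 : α) (i : ℕ) (hne : (lay M i).Nonempty) {lo hi : ℝ≥0 × ℝ}
    (hlo0 : 0 ≤ lo.2) (hlo1 : lo.2 ≤ 1) (hhi0 : 0 ≤ hi.2) (hhi1 : hi.2 ≤ 1)
    (hhi : valueLaw D e0 {z | above hi z}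
      = ENNReal.ofReal ((lrk M i : ℝ) / (2 * (K : ℝ) * (lay M i).card))) :
    ENNReal.ofReal (((lay M i).card : ℝ) / 2) *
        (lo.1 * valueLaw D e0 {z | above lo z} + ∫⁻ v, ((v - lo.1 : ℝ≥0) : ℝ≥0∞) ∂D e0)
      ≤ K * ∫⁻ z, gI M i lo hi z ∂Measure.pi (valueLaw D) := by
  classical
  have hK0 : (0 : ℝ) < K := lt_of_lt_of_le zero_lt_one (by exact_mod_cast hK)
  have hn : (0 : ℝ) < (lay M i).card := by exact_mod_cast card_pos.2 hne
  have hr0 : (0 : ℝ) < lrk M i := by exact_mod_cast lrk_pos M hne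
  set P := Measure.pi (valueLaw D)
  set φ : ℝ≥0 × ℝ → ℝ≥0∞ := {w | above lo w}.indicator (fun w => (w.1 : ℝ≥0∞)) with hφdef
  have hφ : Measurable φ :=
    (measurable_fst.coe_nnreal_ennreal).indicator (measurableSet_above lo)
  set h : α → (α → ℝ≥0 × ℝ) → ℝ≥0∞ := fun e z => if Sp M i e (Hs M i hi z) then 0 else 1
    with hhdef
  set s : α → (α → ℝ≥0 × ℝ) → ℝ≥0∞ := fun e z => if Sp M i e (Hs M i hi z) then 1 else 0
    with hsdef
  have hh : ∀ e, Measurable (h e) := fun e =>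
    Measurable.ite (measurable_Hs M i hi fun T => Sp M i e T) measurable_const measurable_const
  have hsm : ∀ e, Measurable (s e) := fun e =>
    Measurable.ite (measurable_Hs M i hi fun T => Sp M i e T) measurable_const measurable_const
  have hinv : ∀ e x y, h e (update x e y) = h e x := by
    intro e x y
    have : (Hs M i hi (update x e y)).erase e = (Hs M i hi x).erase e := by
      ext f
      simp only [Hs, mem_erase, mem_filter]
      refine and_congr_right fun hf => ?_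
      rw [update_of_ne hf]
    simp only [hhdef]
    exact if_congr (by rw [Sp, Sp, this]) rfl rfl
  have hint : ∫⁻ z, gI M i lo hi z ∂P
      = ∑ e ∈ lay M i, (∫⁻ w, φ w ∂valueLaw D e) * ∫⁻ z, h e z ∂P := by
    change ∫⁻ z, ∑ e ∈ lay M i, h e z * φ (z e) ∂P = _
    have hm : ∀ e ∈ lay M i, Measurable fun z : α → ℝ≥0 × ℝ => h e z * φ (z e) :=
      fun e _ => (hh e).mul (hφ.comp (measurable_pi_apply e))
    rw [lintegral_finsetSum (lay M i) hm]
    exact sum_congr rfl fun e _ => lintegral_mul_eval (valueLaw D) e hφ (hh e) (hinv e)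
  have hone : ∑ e ∈ lay M i, ∫⁻ z, h e z ∂P + ∑ e ∈ lay M i, ∫⁻ z, s e z ∂P
      = ((lay M i).card : ℝ≥0∞) := by
    rw [← sum_add_distrib]
    have : ∀ e, ∫⁻ z, h e z ∂P + ∫⁻ z, s e z ∂P = 1 := by
      intro e
      rw [← lintegral_add_left (hh e)]
      have : ∀ z, h e z + s e z = 1 := by
        intro z
        by_cases hz : Sp M i e (Hs M i hi z) <;> simp [hhdef, hsdef, hz]
      simp [this]
    simp [this]
  have hspan : (lrk M i : ℝ≥0∞) * ∑ e ∈ lay M i, ∫⁻ z, s e z ∂P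
      ≤ (lrk M i : ℝ≥0∞) * ENNReal.ofReal (((lay M i).card : ℝ) / 2) := by
    rw [← lintegral_finsetSum (lay M i) fun e _ => hsm e, ← lintegral_const_mul' _ _ (by simp)]
    have hpt : ∀ z, (lrk M i : ℝ≥0∞) * ∑ e ∈ lay M i, s e z
        ≤ ((lay M i).card : ℝ≥0∞) * ∑ f ∈ lay M i,
            {w | above hi w}.indicator (fun _ => (1 : ℝ≥0∞)) (z f) := by
      intro z
      have e1 : ∑ e ∈ lay M i, s e z
          = (((lay M i).filter fun e => Sp M i e (Hs M i hi z)).card : ℝ≥0∞) := by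
        simp only [hsdef]
        rw [← sum_filter]
        simp
      have e2 : ∑ f ∈ lay M i, {w | above hi w}.indicator (fun _ => (1 : ℝ≥0∞)) (z f)
          = ((Hs M i hi z).card : ℝ≥0∞) := by
        simp only [Hs, Set.indicator_apply, Set.mem_ofPred_eq]
        rw [← sum_filter]
        simp
      rw [e1, e2]
      have hsub : ((lay M i).filter fun e => Sp M i e (Hs M i hi z)) ⊆
          (lay M i).filter fun e => rho M (insert e (Cs M i ∪ Hs M i hi z))
            = rho M (Cs M i ∪ Hs M i hi z) := by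
        intro e he
        rw [mem_filter] at he ⊢
        exact ⟨he.1, rho_insert_eq M (union_subset_union subset_rfl (erase_subset _ _)) he.2⟩
      have := (Nat.mul_le_mul_right (lrk M i) (card_le_card hsub)).trans
        (spanned_bound M i (Hs M i hi z))
      rw [Nat.mul_comm] at this
      exact_mod_cast this
    refine (lintegral_mono hpt).trans ?_
    have hm : ∀ f ∈ lay M i, Measurable fun z : α → ℝ≥0 × ℝ =>
        {w | above hi w}.indicator (fun _ => (1 : ℝ≥0∞)) (z f) :=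
      fun f _ => (measurable_const.indicator (measurableSet_above hi)).comp (measurable_pi_apply f)
    rw [lintegral_const_mul' _ _ (by simp), lintegral_finsetSum (lay M i) hm]
    have hf : ∀ f, ∫⁻ z, {w | above hi w}.indicator (fun _ => (1 : ℝ≥0∞)) (z f) ∂P
        ≤ ENNReal.ofReal ((lrk M i : ℝ) / (2 * (lay M i).card)) := by
      intro f
      rw [(measurePreserving_eval (valueLaw D) f).lintegral_comp
        (measurable_const.indicator (measurableSet_above hi)),
        lintegral_indicator_const (measurableSet_above hi), one_mul]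
      refine (above_comp hK (hcomp f e0) hhi0 hhi1).trans (le_of_eq ?_)
      change (K : ℝ≥0∞) * valueLaw D e0 _ = _
      rw [hhi, ← ENNReal.ofReal_coe_nnreal, ← ENNReal.ofReal_mul hK0.le]
      congr 1
      field_simp
    refine (mul_le_mul' le_rfl (sum_le_sum fun f _ => hf f)).trans (le_of_eq ?_)
    rw [sum_const, nsmul_eq_mul, ← ENNReal.ofReal_natCast, ← ENNReal.ofReal_natCast (lrk M i),
      ← ENNReal.ofReal_mul hn.le, ← ENNReal.ofReal_mul hn.le, ← ENNReal.ofReal_mul hr0.le]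
    congr 1
    field_simp
  have hspan' := (ENNReal.mul_le_mul_iff_right (by exact_mod_cast (lrk_pos M hne).ne')
    (ENNReal.natCast_ne_top _)).1 hspan
  have hh2 : ENNReal.ofReal (((lay M i).card : ℝ) / 2) ≤ ∑ e ∈ lay M i, ∫⁻ z, h e z ∂P := by
    refine ENNReal.le_of_add_le_add_right (ENNReal.ofReal_ne_top
      (r := ((lay M i).card : ℝ) / 2)) ?_
    rw [← ENNReal.ofReal_add (by positivity) (by positivity), add_halves, ENNReal.ofReal_natCast,
      ← hone]
    exact add_le_add le_rfl hspan'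
  rw [hint, Finset.mul_sum]
  set base : ℝ≥0∞ := lo.1 * valueLaw D e0 {z | above lo z}
    + ∫⁻ v, ((v - lo.1 : ℝ≥0) : ℝ≥0∞) ∂D e0
  calc ENNReal.ofReal (((lay M i).card : ℝ) / 2) * base
      ≤ (∑ e ∈ lay M i, ∫⁻ z, h e z ∂P) * base := mul_le_mul' hh2 le_rfl
    _ = ∑ e ∈ lay M i, base * ∫⁻ z, h e z ∂P := by
        rw [Finset.sum_mul]
        exact sum_congr rfl fun e _ => mul_comm _ _
    _ ≤ _ := by
        refine sum_le_sum fun e _ => ?_
        rw [← mul_assoc]
        refine mul_le_mul' ?_ le_rfl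
        have hv := value_above (D e) lo
        change ∫⁻ w, φ w ∂valueLaw D e = _ at hv
        rw [hv, mul_add]
        refine add_le_add ?_ (excess_comp (hcomp e0 e) lo.1)
        rw [← mul_assoc, mul_comm (K : ℝ≥0∞), mul_assoc]
        exact mul_le_mul' le_rfl (above_comp hK (hcomp e0 e) hlo0 hlo1)

lemma lintegral_prod_arrow {β : Type*} {γ : Type*} [MeasurableSpace β] [MeasurableSpace γ]
    (μ : α → Measure β) (ν : α → Measure γ) [∀ a, IsProbabilityMeasure (μ a)]
    [∀ a, IsProbabilityMeasure (ν a)] {G : (α → β × γ) → ℝ≥0∞} (hG : Measurable G) :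
    ∫⁻ x, ∫⁻ y, G (fun a => (x a, y a)) ∂Measure.pi ν ∂Measure.pi μ
      = ∫⁻ z, G z ∂Measure.pi (fun a => (μ a).prod (ν a)) := by
  have hmp := (measurePreserving_arrowProdEquivProdArrow β γ α μ ν).symm _
  rw [← hmp.lintegral_comp hG]
  exact (lintegral_prod _ (hG.comp hmp.measurable).aemeasurable).symm

lemma split_bound (G : (α → ℝ≥0 × (ℝ × ℝ)) → ℝ≥0∞) (H : (α → ℝ≥0 × ℝ) → ℝ≥0∞)
    (hG : Measurable G) (hH : Measurable H) :
    ∫⁻ x : (α → ℝ≥0) × (α → ℝ≥0) × Seed α,
        G (fun e => (x.1 e, x.2.2.1 e)) * H (fun e => (x.2.1 e, x.2.2.2 e))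
        ∂(Measure.pi D).prod ((Measure.pi D).prod (seedLaw α))
      = (∫⁻ z, G z ∂Measure.pi (sampleLaw D)) * ∫⁻ z, H z ∂Measure.pi (valueLaw D) := by
  have a1 : Measurable fun x : (α → ℝ≥0) × (α → ℝ≥0) × Seed α =>
      G (fun e => (x.1 e, x.2.2.1 e)) := hG.comp (by fun_prop)
  have a2 : Measurable fun x : (α → ℝ≥0) × (α → ℝ≥0) × Seed α =>
      H (fun e => (x.2.1 e, x.2.2.2 e)) := hH.comp (by fun_prop)
  have hs1 : Measurable fun p : (α → ℝ≥0) × (α → ℝ × ℝ) => G fun e => (p.1 e, p.2 e) :=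
    hG.comp (by fun_prop)
  have hs2 : Measurable fun p : (α → ℝ≥0) × (α → ℝ) => H fun e => (p.1 e, p.2 e) :=
    hH.comp (by fun_prop)
  have hinner : ∀ S : α → ℝ≥0, ∫⁻ y : (α → ℝ≥0) × Seed α,
        G (fun e => (S e, y.2.1 e)) * H (fun e => (y.1 e, y.2.2 e))
        ∂(Measure.pi D).prod (seedLaw α)
      = (∫⁻ c, G (fun e => (S e, c e)) ∂Measure.pi fun _ : α => unif.prod unif) *
        ∫⁻ V, ∫⁻ d, H (fun e => (V e, d e)) ∂(Measure.pi fun _ : α => unif) ∂Measure.pi D := by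
    intro S
    have b : Measurable fun y : (α → ℝ≥0) × Seed α =>
        G (fun e => (S e, y.2.1 e)) * H (fun e => (y.1 e, y.2.2 e)) :=
      (a1.mul a2).comp (measurable_prodMk_left (x := S))
    have hg : Measurable fun c : α → ℝ × ℝ => G fun e => (S e, c e) :=
      hs1.comp (measurable_prodMk_left (x := S))
    rw [lintegral_prod _ b.aemeasurable, ← lintegral_const_mul _ hs2.lintegral_prod_right']
    refine lintegral_congr fun V => ?_
    exact lintegral_prod_mul hg.aemeasurable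
      (hs2.comp (measurable_prodMk_left (x := V))).aemeasurable
  have c : Measurable fun x : (α → ℝ≥0) × (α → ℝ≥0) × Seed α =>
      G (fun e => (x.1 e, x.2.2.1 e)) * H (fun e => (x.2.1 e, x.2.2.2 e)) := a1.mul a2
  rw [lintegral_prod _ c.aemeasurable]
  simp only [hinner]
  rw [lintegral_mul_const _ hs1.lintegral_prod_right',
    lintegral_prod_arrow D (fun _ => unif.prod unif) hG,
    lintegral_prod_arrow D (fun _ => unif) hH]
  rfl

lemma layer_arith {K a : ℝ≥0} (hK : 1 ≤ K) {n r : ℕ} (hn : 0 < n) {W G P : ℝ≥0∞}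
    (hev : ENNReal.ofReal (1 / (6 * (K : ℝ) ^ 2)) ≤ P)
    (hg : ENNReal.ofReal ((n : ℝ) / 2) *
      (a * ENNReal.ofReal ((r : ℝ) / (6 * (K : ℝ) ^ 3 * n)) + W) ≤ K * G) :
    (r : ℝ≥0∞) * a + (n : ℝ≥0∞) * (K * W) ≤ 72 * (K : ℝ≥0∞) ^ 6 * (P * G) := by
  have hK' : (1 : ℝ) ≤ K := by exact_mod_cast hK
  have hK0 : (0 : ℝ) < K := by linarith
  have p1 : (0 : ℝ) < n := by exact_mod_cast hn
  have h12 : ENNReal.ofReal (6 * (K : ℝ) ^ 3 * n)
      = ENNReal.ofReal (12 * (K : ℝ) ^ 3) * ENNReal.ofReal ((n : ℝ) / 2) := by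
    rw [← ENNReal.ofReal_mul (by positivity)]
    congr 1
    ring
  calc (r : ℝ≥0∞) * a + (n : ℝ≥0∞) * (K * W)
      ≤ ENNReal.ofReal (6 * (K : ℝ) ^ 3 * n) *
          (a * ENNReal.ofReal ((r : ℝ) / (6 * (K : ℝ) ^ 3 * n)) + W) := by
        rw [mul_add]
        refine add_le_add (le_of_eq ?_) ?_
        · rw [mul_left_comm, ← ENNReal.ofReal_mul (by positivity), mul_comm (a : ℝ≥0∞)]
          congr 1
          rw [← ENNReal.ofReal_natCast]
          congr 1
          field_simp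
        · rw [← mul_assoc]
          refine mul_le_mul' ?_ le_rfl
          rw [← ENNReal.ofReal_natCast, ← ENNReal.ofReal_coe_nnreal,
            ← ENNReal.ofReal_mul p1.le]
          refine ENNReal.ofReal_le_ofReal ?_
          nlinarith [mul_le_mul_of_nonneg_left
            (show (K : ℝ) ≤ 6 * (K : ℝ) ^ 3 by nlinarith [sq_nonneg ((K : ℝ) - 1)]) p1.le]
    _ ≤ ENNReal.ofReal (12 * (K : ℝ) ^ 3) * (K * G) := by
        rw [h12, mul_assoc]
        exact mul_le_mul' le_rfl hg
    _ = ENNReal.ofReal (72 * (K : ℝ) ^ 6) *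
          (ENNReal.ofReal (1 / (6 * (K : ℝ) ^ 2)) * G) := by
        rw [← mul_assoc, ← mul_assoc, ← ENNReal.ofReal_coe_nnreal,
          ← ENNReal.ofReal_mul (by positivity), ← ENNReal.ofReal_mul (by positivity)]
        congr 2
        field_simp
        ring
    _ ≤ 72 * (K : ℝ≥0∞) ^ 6 * (P * G) := by
        refine mul_le_mul' (le_of_eq ?_) (mul_le_mul' hev le_rfl)
        rw [← ENNReal.ofReal_coe_nnreal, ← ENNReal.ofReal_pow hK0.le,
          show (72 : ℝ≥0∞) = ENNReal.ofReal 72 by norm_num,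
          ← ENNReal.ofReal_mul (by norm_num)]

lemma alg_bound (lo θhi : ℕ → ℝ≥0 × ℝ) :
    ∑ i ∈ range (Fintype.card α),
      Measure.pi (sampleLaw D) (Ev M i (lo i) (θhi i)) *
        ∫⁻ z, gI M i (lo i) (θhi i) z ∂Measure.pi (valueLaw D)
      ≤ ∫⁻ x, worst M (ruleDec M) x.1 x.2.2 x.2.1
          ∂(Measure.pi D).prod ((Measure.pi D).prod (seedLaw α)) := by
  refine le_trans (le_of_eq ?_)
    (lintegral_mono fun x => worst_ge M lo θhi x.1 x.2.1 x.2.2)
  have hm1 : ∀ i, Measurable ((Ev M i (lo i) (θhi i)).indicator fun _ => (1 : ℝ≥0∞)) :=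
    fun i => measurable_const.indicator (measurableSet_Ev M i _ _)
  have hm2 : ∀ i, Measurable (gI M i (lo i) (θhi i)) := fun i => measurable_gI M i _ _
  have hm : ∀ i ∈ range (Fintype.card α), Measurable
      fun x : (α → ℝ≥0) × (α → ℝ≥0) × Seed α =>
        (Ev M i (lo i) (θhi i)).indicator (fun _ => (1 : ℝ≥0∞)) (fun e => (x.1 e, x.2.2.1 e)) *
          gI M i (lo i) (θhi i) (fun e => (x.2.1 e, x.2.2.2 e)) :=
    fun i _ => ((hm1 i).comp (by fun_prop)).mul ((hm2 i).comp (by fun_prop))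
  rw [lintegral_finsetSum _ hm]
  refine sum_congr rfl fun i _ => ?_
  rw [split_bound D _ _ (hm1 i) (hm2 i),
    lintegral_indicator_const (measurableSet_Ev M i _ _), one_mul]

lemma opt_bound (a : ℕ → ℝ≥0) (hanti : ∀ i, a (i + 1) ≤ a i) :
    ∫⁻ V, opt M V ∂Measure.pi D
      ≤ ∑ i ∈ range (Fintype.card α), ((lrk M i : ℝ≥0∞) * a i
          + ∑ e ∈ lay M i, ∫⁻ v, ((v - a i : ℝ≥0) : ℝ≥0∞) ∂D e) := by
  refine (lintegral_mono fun V => opt_le M V a hanti).trans (le_of_eq ?_)
  have hm : ∀ i ∈ range (Fintype.card α), Measurable fun V : α → ℝ≥0 =>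
      (lrk M i : ℝ≥0∞) * a i + ∑ e ∈ lay M i, ((V e - a i : ℝ≥0) : ℝ≥0∞) := fun i _ => by
    fun_prop
  rw [lintegral_finsetSum _ hm]
  refine sum_congr rfl fun i _ => ?_
  have hm2 : ∀ e ∈ lay M i, Measurable fun V : α → ℝ≥0 =>
      ((V e - a i : ℝ≥0) : ℝ≥0∞) := fun e _ => by fun_prop
  rw [lintegral_add_left measurable_const, lintegral_const, measure_univ, mul_one,
    lintegral_finsetSum _ hm2]
  congr 1
  exact sum_congr rfl fun e _ => (measurePreserving_eval D e).lintegral_comp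
    (f := fun v : ℝ≥0 => ((v - a i : ℝ≥0) : ℝ≥0∞)) (by fun_prop)

/-- The main bound. -/
theorem main_bound (K : ℝ≥0) (hK : 1 ≤ K)
    (hcomp : ∀ e f t, D e (Set.Ioi t) ≤ K * D f (Set.Ioi t)) :
    ∫⁻ V, opt M V ∂Measure.pi D
      ≤ 72 * (K : ℝ≥0∞) ^ 6 *
        ∫⁻ x, worst M (ruleDec M) x.1 x.2.2 x.2.1
          ∂(Measure.pi D).prod ((Measure.pi D).prod (seedLaw α)) := by
  classical
  rcases isEmpty_or_nonempty α with hα | ⟨⟨e0⟩⟩
  · have : ∀ V, opt M V = 0 := by
      intro V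
      refine le_antisymm (iSup₂_le fun I _ => ?_) zero_le
      rw [eq_empty_of_isEmpty I]
      simp
    simp [this]
  have hK' : (1 : ℝ) ≤ K := by exact_mod_cast hK
  have hK0 : (0 : ℝ) < K := by linarith
  have hK3 : (1 : ℝ) ≤ (K : ℝ) ^ 3 := one_le_pow₀ hK'
  set n : ℕ → ℕ := fun i => (lay M i).card with hn
  set xlo : ℕ → ℝ := fun i => (lrk M i : ℝ) / (6 * (K : ℝ) ^ 3 * n i) with hxlo
  set xhi : ℕ → ℝ := fun i => (lrk M i : ℝ) / (2 * (K : ℝ) * n i) with hxhi
  have hbasic : ∀ i, (lay M i).Nonempty → (0 : ℝ) < n i ∧ (0 : ℝ) < lrk M i ∧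
      (lrk M i : ℝ) ≤ n i ∧ 0 < xlo i ∧ xlo i ≤ 1 ∧ 0 < xhi i ∧ xhi i ≤ 1 := by
    intro i hne
    have h1 : (0 : ℝ) < n i := by exact_mod_cast card_pos.2 hne
    have h2 : (0 : ℝ) < lrk M i := by exact_mod_cast lrk_pos M hne
    have h3 : (lrk M i : ℝ) ≤ n i := by exact_mod_cast lrk_le_card M i
    refine ⟨h1, h2, h3, by positivity, ?_, by positivity, ?_⟩
    · rw [hxlo, div_le_one (by positivity)]; nlinarith
    · rw [hxhi, div_le_one (by positivity)]; nlinarith
  set a : ℕ → ℝ≥0 := fun i => if (lay M i).Nonempty then qa (D e0) (xlo i) else 0 with ha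
  have hanti : ∀ i, a (i + 1) ≤ a i := by
    intro i
    simp only [ha]
    by_cases h1 : (lay M (i + 1)).Nonempty
    · have h0 : (lay M i).Nonempty := by
        by_contra h
        exact lay_empty_succ M h h1
      rw [if_pos h1, if_pos h0]
      obtain ⟨p1, p2, -, p4, -⟩ := hbasic i h0
      obtain ⟨q1, q2, -, q4, -⟩ := hbasic (i + 1) h1
      refine qa_anti (D e0) p4 ?_
      rw [hxlo, div_le_div_iff₀ (by positivity) (by positivity)]
      have hd : ((n (i + 1) : ℝ)) * lrk M i ≤ (n i : ℝ) * lrk M (i + 1) := by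
        exact_mod_cast dens_antitone M i
      nlinarith [mul_le_mul_of_nonneg_left hd (by positivity : (0 : ℝ) ≤ 6 * (K : ℝ) ^ 3)]
    · rw [if_neg h1]
      exact zero_le
  have hexlo : ∀ i, ∃ s : ℝ, (lay M i).Nonempty → 0 ≤ s ∧ s ≤ 1 ∧
      valueLaw D e0 {z | above (a i, s) z} = ENNReal.ofReal (xlo i) := by
    intro i
    by_cases h : (lay M i).Nonempty
    · obtain ⟨-, -, -, p4, p5, -⟩ := hbasic i h
      obtain ⟨s, hs⟩ := exists_tie (D e0) p4 p5
      exact ⟨s, fun _ => by simpa [ha, h, valueLaw] using hs⟩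
    · exact ⟨0, fun h' => absurd h' h⟩
  choose slo hslo using hexlo
  have hexhi : ∀ i, ∃ θ : ℝ≥0 × ℝ, (lay M i).Nonempty → 0 ≤ θ.2 ∧ θ.2 ≤ 1 ∧
      valueLaw D e0 {z | above θ z} = ENNReal.ofReal (xhi i) := by
    intro i
    by_cases h : (lay M i).Nonempty
    · obtain ⟨-, -, -, -, -, p6, p7⟩ := hbasic i h
      obtain ⟨s, hs⟩ := exists_tie (D e0) p6 p7
      exact ⟨(qa (D e0) (xhi i), s), fun _ => by simpa [valueLaw] using hs⟩
    · exact ⟨(0, 0), fun h' => absurd h' h⟩
  choose θhi hθhi using hexhi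
  set lo : ℕ → ℝ≥0 × ℝ := fun i => (a i, slo i) with hlo
  have halg := alg_bound M D lo θhi
  -- the optimum's side
  calc ∫⁻ V, opt M V ∂Measure.pi D
      ≤ ∑ i ∈ range (Fintype.card α), ((lrk M i : ℝ≥0∞) * a i
          + ∑ e ∈ lay M i, ∫⁻ v, ((v - a i : ℝ≥0) : ℝ≥0∞) ∂D e) := opt_bound M D a hanti
    _ ≤ ∑ i ∈ range (Fintype.card α), 72 * (K : ℝ≥0∞) ^ 6 *
          (Measure.pi (sampleLaw D) (Ev M i (lo i) (θhi i)) *
            ∫⁻ z, gI M i (lo i) (θhi i) z ∂Measure.pi (valueLaw D)) := by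
        refine sum_le_sum fun i _ => ?_
        by_cases hne : (lay M i).Nonempty
        swap
        · rw [not_nonempty_iff_eq_empty.1 hne]
          simp [ha, hne]
        obtain ⟨p1, p2, -, p4, -⟩ := hbasic i hne
        obtain ⟨l0, l1, l2⟩ := hslo i hne
        obtain ⟨g0, g1, g2⟩ := hθhi i hne
        have hev := ev_bound M D hK hcomp e0 i hne (lo := lo i) l0 l1 g0 g1 l2 g2
        have hg := gI_bound M D hK hcomp e0 i hne (lo := lo i) l0 l1 g0 g1 g2
        rw [show valueLaw D e0 {z | above (lo i) z} = ENNReal.ofReal (xlo i) from l2] at hg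
        refine le_trans (add_le_add le_rfl ?_) (layer_arith hK (card_pos.2 hne) hev hg)
        refine (sum_le_sum fun e _ => excess_comp (hcomp e e0) (a i)).trans (le_of_eq ?_)
        rw [sum_const, nsmul_eq_mul]
    _ = _ := (Finset.mul_sum _ _ _).symm
    _ ≤ _ := mul_le_mul' le_rfl halg

end setup

end Vale.Agent.P331I
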